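import Vale.Agent.P014X.Es.Zs

/-! # P014X: the relations `odd`, `smo`, `cnj` between the classes of the units -/

set_option autoImplicit false
set_option linter.all false

open NumberField
open scoped Classical

noncomputable section

namespace Vale.Agent.P014X

open P022 (Qb GQ)
open P014U
open P014U.Dr (Zn)
open P014U.Pp (ec)
open P004M.TE (ga ga_mul ga_one)

namespace Zs

variable {A B : ℤ} {D : Cd A B} {R : Type} [CommRing R] {N : ℕ} {α m m' : D.O} {χ : D.G →* R}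
  {u : Qb}

/-- the ray class groups are commutative -/
theorem comm (C : D.Cf) (m0 : m ≠ 0) (s g : D.G) : ((s * g : D.G) : Xm D m) = (g * s : D.G) := by
  obtain ⟨β, -, b⟩ := C.ac m m0 s s.2
  obtain ⟨γ, -, c⟩ := C.ac m m0 g g.2
  refine QuotientGroup.eq.2 ((C.hm m m0 _).2 ⟨1, isUnit_one, ((s * g)⁻¹ * (g * s)).2, ?_⟩)
  rw [Subgroup.subtype_apply, Subgroup.coe_mul, ga_mul, Subgroup.coe_mul, (Ev.ac_mul C c b).2,
    mul_comm γ, ← (Ev.ac_mul C b c).2, ← ga_mul, ← Subgroup.coe_mul, ← Subgroup.coe_mul,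
    inv_mul_cancel, Subgroup.coe_one, ga_one, Ev.a1]

theorem act_out (C : D.Cf) (m0 : m ≠ 0) (s : D.G) (x : Xm D m) : s • x = (x.out * s : D.G) := by
  conv_lhs => rw [← QuotientGroup.out_eq' x, MulAction.Quotient.smul_mk, smul_eq_mul, comm C m0]

theorem act_comm (C : D.Cf) (m0 : m ≠ 0) (s g : D.G) (x : Xm D m) : s • g • x = g • s • x := by
  rw [act_out C m0 s x, ← mul_smul, ← QuotientGroup.out_eq' x, MulAction.Quotient.smul_mk,
    MulAction.Quotient.smul_mk, smul_eq_mul, smul_eq_mul, mul_assoc, comm C m0, QuotientGroup.out_eq',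
    mul_assoc]

theorem cu_tr (C : D.Cf) (m0 : m ≠ 0) (h : ∀ g ∈ D.Hm m, g u = u) (s : D.G) (x : Xm D m) :
    cu u (s • x) = x.out.1 (s.1 u) := by
  rw [act_out C m0, cu_mk h]; rfl

/-- the projection -/
def pr (le : D.Hm m' ≤ D.Hm m) : Xm D m' → Xm D m :=
  Subgroup.quotientMapOfLE (Subgroup.comap_mono le)

theorem pr_mk (le : D.Hm m' ≤ D.Hm m) (g : D.G) : pr le (g : Xm D m') = g := rfl

theorem pr_act (le : D.Hm m' ≤ D.Hm m) (g : D.G) (x : Xm D m') : pr le (g • x) = g • pr le x := by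
  obtain ⟨s, rfl⟩ := QuotientGroup.mk_surjective x
  rw [MulAction.Quotient.smul_mk, pr_mk, pr_mk, MulAction.Quotient.smul_mk]

theorem cw_pr (le : D.Hm m' ≤ D.Hm m) (h : D.Tr m χ) : (cw χ : Xm D m' → R) = cw χ ∘ pr le :=
  funext fun x => by
    conv_rhs => rw [← QuotientGroup.out_eq' x, Function.comp, pr_mk, cw_mk h]
    rfl

/-- the fibre above the origin -/
theorem ps_one [Fintype (Xm D m')] (le : D.Hm m' ≤ D.Hm m) (hG : D.Hm m ≤ D.G) :
    ∃ T, Cd.Tv (D.Hm m) (D.Hm m') T ∧ ∀ u, ps (pr le) (cu u) ((1 : D.G) : Xm D m) = ∏ s ∈ T, s u := by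
  have k : ∀ x : Xm D m', pr le x = (1 : D.G) ↔ x.out.1 ∈ D.Hm m := fun x => by
    conv_lhs => rw [← QuotientGroup.out_eq' x, pr_mk, eq_comm, QuotientGroup.eq, inv_one, one_mul]
    rfl
  refine ⟨(Finset.univ.filter fun x => pr le x = (1 : D.G)).image fun x => x.out.1, ⟨?_, fun g h => ?_⟩,
    fun u => by
      rw [Finset.prod_image]
      exacts [by unfold ps cu; congr, fun x _ y _ e => Quotient.out_injective (Subtype.ext e)]⟩
  · simp only [Finset.mem_image, Finset.mem_filter]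
    rintro _ ⟨x, ⟨-, h⟩, rfl⟩
    exact (k x).1 h
  · have o := out_mk (m := m') ⟨g, hG h⟩
    refine ⟨((⟨g, hG h⟩ : D.G) : Xm D m').out, ⟨Finset.mem_image_of_mem _ (Finset.mem_filter.2
      ⟨Finset.mem_univ _, (k _).2 ?_⟩), ?_⟩, ?_⟩
    · simpa using mul_mem h (le o)
    · simpa using inv_mem o
    · simp only [Finset.mem_image]
      rintro _ ⟨⟨x, -, rfl⟩, e⟩
      rw [← show (x.out : Xm D m') = (⟨g, hG h⟩ : D.G) from QuotientGroup.eq.2 e, QuotientGroup.out_eq']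

variable [Pp]

theorem Rf.ext {v v' ρ ρ' : Xm D m → Qb} (h : Rf D N v ρ) (h' : Rf D N v' ρ')
    (e : v (1 : D.G) = v' (1 : D.G)) : v = v' := funext fun x => by
  obtain ⟨s, rfl⟩ := QuotientGroup.mk_surjective x
  rw [← mul_one s, ← smul_eq_mul, ← MulAction.Quotient.smul_mk, ← h.eqv, ← h'.eqv]
  exact congrArg _ e

theorem Z_tr {X : Type} [Fintype X] [MulAction D.G X] (ι : Zn N →+* R) {w : X → R} (hw : Wt χ w)
    (s : D.G) (e : ∀ (g : D.G) (x : X), s • g • x = g • s • x) (ρ : X → Qb) :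
    Z D ι w (ρ ∘ (s • ·)) = χ s⁻¹ • Z D ι w ρ := by
  rw [← Z_comp ι (MulAction.toPerm s) e w ρ, ← Z_smul]
  congr 1
  funext x
  simp only [Pi.smul_apply, Function.comp, MulAction.toPerm_apply, hw s x, smul_eq_mul]
  rw [← mul_assoc, ← map_mul, inv_mul_cancel, map_one, one_mul]

variable (C : D.Cf) (E : D.Es pp) (ι : Zn N →+* R)
include C E

theorem odd {π : D.O} {P : Ideal (𝓞 Qb)} {φ : GQ} (h : D.Fr π P 1 φ) (a' : D.Ad pp α (m * π))
    (a : D.Ad pp α m) (n : ¬ π ∣ m) (t : D.Tr m χ) :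
    D.Ch (D.ak ι χ) (D.zc α (m * π) ι χ) ((1 - χ ⟨φ, h.G⟩) • D.zc α m ι χ) := by
  haveI := fin C a.ne
  haveI := fin C a'.ne
  haveI := Fintype.ofFinite (Xm D m)
  haveI := Fintype.ofFinite (Xm D (m * π))
  have le := Ev.hm_le C a'.ne
  obtain ⟨T, tv, e⟩ := ps_one le (Ev.hm_G C a.ne)
  have r := rf_un (N := N) E a
  have r1 := (rf_un (N := N) E a').ps (pr_act le)
  have c := act_comm C a.ne (⟨φ, h.G⟩ : D.G)⁻¹
  have r2 := r.comp (t := ((⟨φ, h.G⟩ : D.G)⁻¹ • ·)) c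
  have r3 := r1.mul r2
  rw [r3.ext r (by
    rw [Pi.mul_apply, e, Function.comp, ← r.eqv, cu_mk (E.fix α m a)]
    exact E.odd α m π T P φ a' a n h tv)] at r3
  obtain ⟨w, k⟩ := Z_ch ι (wt t) r3 r
  rw [Z_mul ι r1 r2, Z_tr ι (wt t) _ c, ← Z_ps ι (rf_un E a') (pr_act le), ← cw_pr le t, inv_inv,
    ← zc_eq E a, ← zc_eq E a'] at k
  exact ⟨w, fun g => by
    have := k g
    simp only [Pi.add_apply, Pi.smul_apply, smul_eq_mul] at this ⊢
    linear_combination this⟩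

theorem smo {α' ζ ζ' : D.O} {g g' : D.G} (a : D.Ad pp α m) (a' : D.Ad pp α' m) (z : IsUnit ζ)
    (z' : IsUnit ζ') (h : D.Ac m g (ζ * α)) (h' : D.Ac m g' (ζ' * α')) (t : D.Tr m χ) :
    D.Ch (D.ak ι χ) (((D.nm α' : R) - χ g'⁻¹) • D.zc α m ι χ)
      (((D.nm α : R) - χ g⁻¹) • D.zc α' m ι χ) := by
  haveI := fin C a.ne
  haveI := Fintype.ofFinite (Xm D m)
  have r := rf_un (N := N) E a
  have r' := rf_un (N := N) E a'
  have c := act_comm C a.ne g
  have c' := act_comm C a.ne g'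
  have r1 := r.comp (t := (g' • ·)) c'
  have r2 := r'.comp (t := (g • ·)) c
  have r3 := r1.mul (r'.pow (D.nm α))
  have r4 := r2.mul (r.pow (D.nm α'))
  rw [r3.ext r4 (by
    simp only [Pi.mul_apply, Pi.pow_apply, Function.comp, ← r.eqv, ← r'.eqv, cu_mk (E.fix α m a),
      cu_mk (E.fix α' m a')]
    exact E.smo α α' m g g' ζ ζ' a a' z z' h h')] at r3
  obtain ⟨w, k⟩ := Z_ch ι (wt t) r4 r3
  rw [Z_mul ι r1 (r'.pow _), Z_mul ι r2 (r.pow _), Z_tr ι (wt t) _ c, Z_tr ι (wt t) _ c', Z_pow ι r,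
    Z_pow ι r', ← zc_eq E a, ← zc_eq E a'] at k
  exact ⟨w, fun g => by
    have := k g
    simp only [Pi.add_apply, Pi.smul_apply, smul_eq_mul] at this ⊢
    linear_combination this⟩

omit E ι

omit [Pp] in
theorem cg_val (g : D.G) : (D.cg g).1 = D.c * g * D.c := by
  have : D.c * g * D.c ∈ D.G := by
    simpa only [inv_eq_of_mul_eq_one_right C.c2] using C.nrm.conj_mem g g.2 D.c
  rw [Cd.cg, dif_pos this]

omit [Pp] in
theorem cg_mul (g h : D.G) : D.cg (g * h) = D.cg g * D.cg h := Subtype.ext <| by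
  simp only [Subgroup.coe_mul, cg_val C, mul_assoc]
  rw [← mul_assoc D.c D.c, C.c2, one_mul]

omit [Pp] in
theorem cg_cg (g : D.G) : D.cg (D.cg g) = g := Subtype.ext <| by
  simp only [cg_val C, mul_assoc, C.c2, mul_one]
  rw [← mul_assoc, C.c2, one_mul]

omit [Pp] in
theorem cg_inv (g : D.G) : D.cg g⁻¹ = (D.cg g)⁻¹ := Subtype.ext <| by
  simp only [cg_val C, Subgroup.coe_inv, mul_inv_rev, inv_eq_of_mul_eq_one_right C.c2, mul_assoc]

omit [Pp] in
theorem cg_hm (m0 : m ≠ 0) (e : m' = star m) {g : D.G} (h : g.1 ∈ D.Hm m') : (D.cg g).1 ∈ D.Hm m := by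
  have n : D.c ∉ D.G := (C.cG _).2 (C.c2 ▸ one_mem _)
  have m1 : m' ≠ 0 := e ▸ star_ne_zero.2 m0
  obtain ⟨ζ, z, a⟩ := (C.hm _ m1 _).1 h
  refine (C.hm _ m0 _).2 ⟨star (D.η * ζ) * D.η, (C.eu.mul z).star.mul C.eu, (D.cg g).2, ?_⟩
  rw [cg_val C, ga_mul, ga_mul, C.ctp m m0, C.lin _ g.2, ← e, a.2, Ev.am, C.sem _ n, C.ctp _ m1, Ev.am,
    e, star_star]

omit [Pp] in
theorem cg_mk (m0 : m ≠ 0) (e : m' = star m) (g : D.G) :
    (D.cg (g : Xm D m').out : Xm D m) = D.cg g :=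
  (QuotientGroup.eq.2 (by rw [← cg_inv C, ← cg_mul C]; exact cg_hm C m0 e (out_mk g))).symm

/-- conjugation on the ray classes -/
def ct (m0 : m ≠ 0) : Xm D (star m) ≃ Xm D m where
  toFun y := D.cg y.out
  invFun x := D.cg x.out
  left_inv y := by
    simp only [cg_mk C (star_ne_zero.2 m0) (star_star m).symm, cg_cg C, QuotientGroup.out_eq']
  right_inv x := by simp only [cg_mk C m0 rfl, cg_cg C, QuotientGroup.out_eq']

omit [Pp] in
theorem ct_mk (m0 : m ≠ 0) (g : D.G) : ct C m0 g = D.cg g := cg_mk C m0 rfl g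

omit [Pp] in
theorem ct_act (m0 : m ≠ 0) (g : D.G) (y : Xm D (star m)) : ct C m0 (g • y) = D.cg g • ct C m0 y := by
  obtain ⟨s, rfl⟩ := QuotientGroup.mk_surjective y
  rw [MulAction.Quotient.smul_mk, ct_mk, ct_mk, smul_eq_mul, cg_mul C]
  rfl

omit C in
theorem dl_c {z : Qb} (h : z ^ pp ^ N = 1) : dl N (D.c z) = -dl N z := by
  have : D.c z * z = 1 := P027M.M.io.toRingHom.injective <| by
    have := Complex.norm_eq_one_of_pow_eq_one (show P027M.M.io z ^ pp ^ N = 1 by rw [← map_pow, h, map_one])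
      (pow_pos pp_pos N).ne'
    show P027M.M.io _ = P027M.M.io _
    rw [map_mul, D.cc, Complex.conj_mul', this, map_one]
    simp
  rw [eq_neg_iff_add_eq_zero, ← dl_mul (by rw [← map_pow, h, map_one]) h, this, dl_one]

omit C [Pp] in
theorem ad_star {p : ℕ} (a : D.Ad p α m) : D.Ad p (star α) (star m) :=
  ⟨star_ne_zero.2 a.ne, by simpa [starRingEnd_apply] using map_dvd (starRingEnd D.O) a.dv,
    by simpa [map_ofNat, starRingEnd_apply] using a.cop.map (starRingEnd D.O)⟩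

theorem cnj (E : D.Es pp) (ι : Zn N →+* R) {χ' : D.G →* R} (a : D.Ad pp α m) (t : D.Tr m χ)
    (e : ∀ g, χ' g = χ (D.cg g)) :
    D.Ch (D.ak ι χ') (fun g => D.zc α m ι χ (D.cg g)) (-D.zc (star α) (star m) ι χ') := by
  have a' := ad_star a
  haveI := fin C a.ne
  haveI := fin C a'.ne
  haveI := Fintype.ofFinite (Xm D m)
  haveI := Fintype.ofFinite (Xm D (star m))
  have t' : D.Tr (star m) χ' := fun g h => (e g).trans (t _ (cg_hm C a.ne rfl h))
  have r := rf_un (N := N) E a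
  have r' := rf_un (N := N) E a'
  have cc : ∀ x, D.c (D.c x) = x := fun x => by rw [← AlgEquiv.mul_apply, C.c2]; rfl
  have r1 : Rf D N (cu (D.un (star α) (star m))) fun y => D.c (cu (rt N (D.un α m)) (ct C a.ne y)) :=
    ⟨r'.ne, r'.eqv, fun y => by
      obtain ⟨s, rfl⟩ := QuotientGroup.mk_surjective y
      rw [← map_pow, r.rt, ct_mk, cu_mk (E.fix _ _ a), cu_mk (E.fix _ _ a'), cg_val C, ← E.cj α m a]
      exact cc _⟩
  rw [zc_eq E a, zc_eq E a']
  convert (Z_ch ι (wt t') r1 r').neg using 1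
  funext g
  rw [Pi.neg_apply, Z, Z, ← (ct C a.ne).sum_comp, ← Finset.sum_neg_distrib]
  refine Finset.sum_congr rfl fun y _ => ?_
  have f : q D (fun y => D.c (cu (rt N (D.un α m)) (ct C a.ne y))) g y =
      D.c (q D (cu (rt N (D.un α m))) (D.cg g) (ct C a.ne y)) := by
    simp only [q, map_div₀, ct_act, cg_inv C, cg_val C, AlgEquiv.mul_apply, cc]
  obtain ⟨s, rfl⟩ := QuotientGroup.mk_surjective y
  rw [f, dl_c (r.q_pow _ _), map_neg, cw_mk t', e, ct_mk, cw_mk t, mul_neg, neg_neg]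

end Zs

end Vale.Agent.P014X
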