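import Vale.Agent.P014X.Es.Tam
import Vale.Agent.P014X.Eu.Es
import Vale.Agent.P014U.Pp.Lcb
import Vale.Agent.P014U.Dr.Kol

/-! # P014X: the derivative classes of the Euler system of rank one (helper96) -/

set_option autoImplicit false
set_option linter.all false

open NumberField
open scoped Classical

noncomputable section

namespace Vale.Agent.P014X.Ko

open Vale.Agent.P022 (Qb GQ)
open Vale.Agent.P027M.S (Inert)
open Vale.Agent.P022E.GW (Ov Fb)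
open Vale.Agent.P022D.W (conj_inP phi_mem)
open Vale.Agent.P022.H443 (inP)
open Vale.Agent.P014U
open Vale.Agent.P014U.Dr (Zn nil2 nd_two ex_var kill inert_Hm root_cong ex_big prod_fix nil_mul)
open Vale.Agent.P014U.Pp (ec)
open Vale.Agent.P014U.Pp.Lcb (ec_eq ec_hm)
open Ev

variable [Pp] {A B : ℤ} {D : Cd A B} {R S : Type} [CommRing R] [CommRing S] {N l : ℕ}
  {α m m' π : D.O} {ι : Zn N →+* R} {χ ξ : D.G →* R} {P : Ideal (𝓞 Qb)} {g₀ g i φ τ : D.G}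

/-- the normalised class -/
def nz (g₀ : D.G) (α m : D.O) (ι : Zn N →+* R) (χ : D.G →* R) (g : D.G) : R :=
  (D.ak ι χ g₀ - 1) * D.zc α m ι χ g - (D.ak ι χ g - 1) * D.zc α m ι χ g₀

theorem ak_ap (g : D.G) : D.ak ι χ g = ι (ec N g) * χ g := rfl

theorem nz_ch {c : R} (h : D.Ch (D.ak ι χ) (D.zc α m' ι χ) (c • D.zc α m ι χ)) (g : D.G) :
    nz g₀ α m' ι χ g = c * nz g₀ α m ι χ g := by
  obtain ⟨w, h⟩ := h
  have a := h g
  have b := h g₀
  simp only [Pi.smul_apply, smul_eq_mul, nz] at a b ⊢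
  linear_combination (D.ak ι χ g₀ - 1) * a - (D.ak ι χ g - 1) * b

omit [Pp] in
theorem tr_map (t : D.Tr m χ) (f : R →+* S) : D.Tr m (f.toMonoidHom.comp χ) := fun g h => by
  simp [t g h]

omit [Pp] in
theorem tr_mul (t : D.Tr m χ) (t' : D.Tr m ξ) : D.Tr m (χ * ξ) := fun g h => by
  simp [t g h, t' g h]

theorem ad_mul (a : D.Ad pp α m) (n : m' ≠ 0) (c : IsCoprime α m') : D.Ad pp α (m * m') :=
  have := dom D
  ⟨mul_ne_zero a.ne n, a.dv.mul_right _, mul_assoc 6 m m' ▸ a.cop.mul_right c⟩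

theorem p_ne (a : D.Ad pp α m) : (pp : D.O) ≠ 0 := fun e => a.ne (by simpa [e] using a.dv)

theorem p_dvd (a : D.Ad pp α m) : (pp : D.O) ∣ m := (dvd_pow_self _ two_ne_zero).trans a.dv

theorem ad_pow (a : D.Ad pp α m) (k : ℕ) : D.Ad pp α (m * pp ^ k) :=
  have := dom D
  ad_mul a (pow_ne_zero k (p_ne a))
    (a.cop.of_mul_right_right.of_isCoprime_of_dvd_right (p_dvd a)).pow_right

theorem ne_pp (a : D.Ad pp α m) (o : Ov l P) (h : D.j m ∉ P) : l ≠ pp := fun e => by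
  obtain ⟨y, rfl⟩ := p_dvd a
  exact h (by rw [map_mul, map_natCast, ← e]; exact P.mul_mem_right _ o.2.2)

omit [Pp] in
theorem out_of (f : D.Fr π P 1 φ) (d : ¬ π ∣ m) : D.j m ∉ P := fun h => by
  have := dom D
  have := D.pid
  obtain ⟨u, v, e⟩ := f.pr.coprime_iff_not_dvd.2 d
  refine f.pP.ne_top (P.eq_top_iff_one.2 ?_)
  rw [← map_one D.j, ← e, map_add, map_mul, map_mul]
  exact P.add_mem (P.mul_mem_left _ f.mem) (P.mul_mem_left _ h)

variable (C : D.Cf)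
include C

omit [Pp] in
theorem tr_mono (t : D.Tr m χ) (n : m * m' ≠ 0) : D.Tr (m * m') χ := fun g h => t g (hm_le C n h)

omit [Pp] in
theorem in_hm (o : Ov l P) (hi : Inert P i.1) (h : D.j m ∉ P) : i.1 ∈ D.Hm m := by
  have := dom D
  have := D.pid
  obtain ⟨π, p, q, -⟩ := C.bel l P o
  have m0 : m ≠ 0 := fun e => h (by rw [e, map_zero]; exact P.zero_mem)
  obtain ⟨ζ, u, a⟩ := C.mt π P 0 i ⟨p, o.2.1, q, i.2, fun x => by simpa using hi x⟩
  refine (C.hm m m0 _).2 ⟨ζ, u, ?_⟩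
  simpa using a m m0 (p.coprime_iff_not_dvd.2 fun ⟨y, e⟩ =>
    h (by rw [e, map_mul]; exact P.mul_mem_right _ q)).symm

omit [Pp] in
theorem comm_hm (m0 : m ≠ 0) (g h : D.G) : (g * h * g⁻¹ * h⁻¹).1 ∈ D.Hm m := by
  obtain ⟨x, -, a⟩ := C.ac m m0 _ g.2
  obtain ⟨y, -, b⟩ := C.ac m m0 _ h.2
  obtain ⟨x', -, a'⟩ := C.ac m m0 _ g⁻¹.2
  obtain ⟨y', -, b'⟩ := C.ac m m0 _ h⁻¹.2
  have k := ac_mul C (ac_mul C a a') (ac_mul C b b')
  have k' := ac_mul C (ac_mul C (ac_mul C a b) a') b'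
  simp only [Subgroup.coe_inv, mul_inv_cancel, mul_one] at k
  refine (C.hm m m0 _).2 ⟨1, isUnit_one, ac_of C m0 k' ?_⟩
  rw [show x * y * x' * y' = x * x' * (y * y') by ring]
  exact ac_eq C m0 k (by simpa using ac_pow C a 0)

omit [Pp] in
theorem nm_unit {ζ : D.O} (u : IsUnit ζ) : D.nm ζ = 1 :=
  Int.isUnit_iff_natAbs_eq.1 (u.map QuadraticAlgebra.norm)

omit [Pp] in
theorem hm_cyc {n : ℕ} (m0 : m * n ≠ 0) {g : GQ} (h : g ∈ D.Hm (m * n)) : g ∈ Dr.Hm n := by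
  obtain ⟨ζ, u, a⟩ := (C.hm _ m0 g).1 h
  rw [mul_comm] at a m0
  intro z e
  rw [C.det n g ζ (fun k => m0 (by simp [k])) (ac_dv C m0 a) z e, nm_unit C u, pow_one]

variable (W : D.Rw)
include W

omit C in
theorem nz_map (f : R →+* S) (m0 : m ≠ 0) (g : D.G) :
    f (nz g₀ α m ι χ g) = nz g₀ α m (f.comp ι) (f.toMonoidHom.comp χ) g := by
  simp only [nz, map_sub, map_mul, map_one, W.map N α m R S f ι χ _ m0, ak_ap]
  rfl

theorem ak_open (a : D.Ad pp α m) (t : D.Tr m χ) :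
    ∃ U : Subgroup GQ, IsOpen (U : Set GQ) ∧ ∀ w : D.G, w.1 ∈ U → D.ak ι χ w = 1 := by
  have n := (ad_pow a N).ne
  refine ⟨_, hm_op C n, fun w h => ?_⟩
  rw [ak_ap, t w (hm_le C n h), ec_hm (hm_cyc C (n := pp ^ N) (by simpa using n) (by simpa using h)),
    map_one, mul_one]

theorem nz_co (a : D.Ad pp α m) (t : D.Tr m χ) : D.Co (D.ak ι χ) (nz g₀ α m ι χ) := by
  have c := W.co N α m R ι χ a t
  obtain ⟨U, u1, u2⟩ := c.lc
  obtain ⟨V, v1, v2⟩ := ak_open C W (ι := ι) a t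
  refine ⟨fun g h => ?_, U ⊓ V, u1.inter v1, fun w h => ?_⟩
  · simp only [nz, c.coc g h, map_mul]
    ring
  · simp [nz, u2 w h.1, v2 w h.2]

omit C W in
theorem ak_in (t : D.Tr m χ) (o : Ov l P) (l2 : l ≠ pp) (hi : Inert P i.1) (h : i.1 ∈ D.Hm m) :
    D.ak ι χ i = 1 := by
  rw [ak_ap, t i h, ec_hm (inert_Hm o (nd_two o l2 N) hi), map_one, mul_one]

omit C in
theorem nz_unr (a : D.Ad pp α m) (t : D.Tr m χ) (o : Ov l P) (l2 : l ≠ pp) (hi : Inert P i.1)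
    (h : i.1 ∈ D.Hm m) : nz g₀ α m ι χ i = 0 := by
  simp [nz, W.unr N α m R ι χ l P i a t o l2 hi h, ak_in t o l2 hi h]

omit C in
/-- back from the ring with the cyclotomic variable -/
theorem back (a : D.Ad pp α m) (t : D.Tr m χ) (k : ℕ) {j : R →+* S} {e : S →+* R}
    (h : ∀ x, e (j x) = x) {Ψ : D.G →* S} (h' : ∀ g, e (Ψ g) = χ g) (g : D.G) :
    e (nz g₀ α (m * pp ^ k) (j.comp ι) Ψ g) = nz g₀ α m ι χ g := by
  rw [nz_map W e (ad_pow a k).ne, show e.comp (j.comp ι) = ι from RingHom.ext fun _ => h _,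
    show e.toMonoidHom.comp Ψ = χ from MonoidHom.ext h', nz_ch (c := 1) (m := m), one_mul]
  rw [one_smul]
  exact W.dv N α m _ R ι χ a (ad_pow a k) ⟨_, rfl⟩ (fun π p d => (p.dvd_or_dvd d).elim id fun d =>
    (p.dvd_of_dvd_pow d).trans (p_dvd a)) t

omit C in
/-- the relation modulo `x` -/
theorem modx (a' : D.Ad pp α (m * π)) (a : D.Ad pp α m) (d : ¬ π ∣ m) (f : D.Fr π P 1 φ)
    (t : D.Tr m χ) {x : R} (x2 : x ^ 2 = 0) (h : ∀ g, ∃ c, ξ g = 1 + c * x) (g : D.G) :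
    x * nz g₀ α (m * π) ι (χ * ξ) g = x * ((1 - χ φ) * nz g₀ α m ι χ g) := by
  refine kill x2 ?_
  set q := Ideal.Quotient.mk (Ideal.span {x})
  have e : q.toMonoidHom.comp (χ * ξ) = q.toMonoidHom.comp χ := MonoidHom.ext fun g => by
    obtain ⟨c, hc⟩ := h g
    have : q x = 0 := Ideal.Quotient.eq_zero_iff_mem.2 (Ideal.mem_span_singleton_self x)
    simp [hc, this]
  rw [nz_map W q a'.ne, e, nz_ch (W.odd N α m π P φ f _ (q.comp ι) _ a' a d (tr_map t q)), map_mul,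
    nz_map W q a.ne]
  simp

theorem fs0 (a' : D.Ad pp α (m * π)) (a : D.Ad pp α m) (d : ¬ π ∣ m) (o : Ov l P)
    (f : D.Fr π P 1 φ) (b : Fb l P φ.1) (hi : Inert P τ.1) (l1 : (l : R) = 1) (t : D.Tr m χ)
    (t' : D.Tr π ξ) {x : R} (x2 : x ^ 2 = 0) (h : ∀ g, ∃ c, ξ g = 1 + c * x) (e1 : ξ τ = 1 + x) :
    (χ φ - 1) * (nz g₀ α (m * π) ι (χ * ξ) τ + x * nz g₀ α m ι χ φ) = 0 := by
  have n := out_of f d
  have l2 := ne_pp a o n
  have hτ := in_hm C o hi n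
  have t2 : D.Tr (m * π) (χ * ξ) :=
    tr_mul (tr_mono C t a'.ne) (mul_comm π m ▸ tr_mono C t' (mul_comm π m ▸ a'.ne))
  have co := nz_co C W (g₀ := g₀) (ι := ι) a' t2
  have ci : Inert P (φ * τ * φ⁻¹ * τ⁻¹).1 :=
    (inP P).mul_mem (conj_inP (phi_mem o.1 o.2.1 b) hi) ((inP P).inv_mem hi)
  have k := co.coc (φ * τ * φ⁻¹ * τ⁻¹) (τ * φ)
  obtain ⟨c, hc⟩ := h φ
  have q1 := modx W (g₀ := g₀) (ι := ι) a' a d f t x2 h φ
  have q2 := modx W (g₀ := g₀) (ι := ι) a' a d f t x2 h τ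
  rw [nz_unr W a t o l2 hi hτ] at q2
  rw [nz_unr W a' t2 o l2 ci (comm_hm C a'.ne φ τ), ak_in t2 o l2 ci (comm_hm C a'.ne φ τ),
    show φ * τ * φ⁻¹ * τ⁻¹ * (τ * φ) = φ * τ by group, co.coc, co.coc, ak_ap, ak_ap,
    ec_hm (inert_Hm o (nd_two o l2 N) hi),
    ec_eq (k := l) (fun z e => root_cong o (nd_two o l2 N) b e), map_natCast, l1,
    MonoidHom.mul_apply, MonoidHom.mul_apply, t τ hτ, e1, hc, map_one] at k
  linear_combination k + q1 - c * χ φ * q2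

/-- **the finite-singular relation** -/
theorem fs (a' : D.Ad pp α (m * π)) (a : D.Ad pp α m) (d : ¬ π ∣ m) (o : Ov l P)
    (f : D.Fr π P 1 φ) (b : Fb l P φ.1) (hi : Inert P τ.1) (l1 : (l : R) = 1) (t : D.Tr m χ)
    (t' : D.Tr π ξ) {x : R} (x2 : x ^ 2 = 0) (h : ∀ g, ∃ c, ξ g = 1 + c * x) (e1 : ξ τ = 1 + x)
    (nil : IsNilpotent (χ φ - 1)) :
    nz g₀ α (m * π) ι (χ * ξ) τ = -(x * nz g₀ α m ι χ φ) := by
  have n := out_of f d
  have l2 := ne_pp a o n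
  obtain ⟨k, S, _, j, p, γ, h1, h2, h3, -, h5⟩ := ex_var (nil2 ι) o l2 b nil (l + 1)
  have a2 := ad_pow a k
  have a3 : D.Ad pp α (m * pp ^ k * π) := mul_right_comm m π _ ▸ ad_pow a' k
  have q := fs0 C W (g₀ := g₀) (ι := j.comp ι) (χ := j.toMonoidHom.comp χ * γ.comp D.G.subtype) a3 a2
    (fun e => (f.pr.dvd_or_dvd e).elim d fun e => d ((f.pr.dvd_of_dvd_pow e).trans (p_dvd a))) o f b
    hi (by rw [← map_natCast j, l1, map_one]) (tr_mul (tr_mono C (tr_map t j) a2.ne) fun g e =>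
      h3 g (hm_cyc C (n := pp ^ k) (by simpa using a2.ne) (by simpa using e))) (tr_map t' j)
    (x := j x) (by rw [← map_pow, x2, map_zero]) (fun g => (h g).elim fun c e => ⟨j c, by simp [e]⟩)
    (by simp [e1])
  have r := mul_eq_zero_of_right (j (χ φ) * γ φ - l) q
  rw [← mul_assoc, show (j (χ φ) * γ φ - l) * ((j.toMonoidHom.comp χ * γ.comp D.G.subtype) φ - 1) =
    l - ((l + 1 : ℤ) : S) * (j (χ φ) * γ φ) + (j (χ φ) * γ φ) ^ 2 by
      show _ * (j (χ φ) * γ φ - 1) = _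
      push_cast
      ring] at r
  replace r := h5 _ r
  rw [map_add, map_mul, h1, back W a t k h1 (fun g => by simp [h1, h2]), mul_right_comm m,
    back W a' (tr_mul (tr_mono C t a'.ne) (mul_comm π m ▸ tr_mono C t' (mul_comm π m ▸ a'.ne))) k h1
      (fun g => by simp [h1, h2])] at r
  exact eq_neg_of_add_eq_zero_left r

omit C W

/-- `1 + e x` -/
def xi (ι : Zn N →+* S) (e : D.G →* Multiplicative (Zn N)) {x : S} (h : x ^ 2 = 0) : D.G →* S where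
  toFun g := 1 + ι (e g).toAdd * x
  map_one' := by simp
  map_mul' g k := by
    rw [map_mul, toAdd_mul, map_add]
    linear_combination -ι (e g).toAdd * ι (e k).toAdd * h

theorem kp_one (ι' : Zn N →+* S) (k : D.Kp N χ m') : (k.l : S) = 1 := by
  have : (pp : S) ^ N = 0 := by
    simpa only [map_zero, Nat.cast_pow, map_pow, map_natCast] using
      congrArg ι' (ZMod.natCast_self (pp ^ N))
  rw [← Nat.div_add_mod k.l (pp ^ (N + 2)), k.md]
  simp [pow_add, this]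

theorem inj_mono {n n' : Finset (D.Kp N χ m')} (h : Cd.Inj n') (s : n ⊆ n') : Cd.Inj n :=
  fun k a k' b => h k (s a) k' (s b)

theorem kp_cop (k : D.Kp N χ m') : IsCoprime k.π m' :=
  k.cop.of_isCoprime_of_dvd_left ⟨_, k.nm.symm⟩

theorem inj_nd {n : Finset (D.Kp N χ (α * m))} {q} (h : Cd.Inj (insert q n)) (hq : q ∉ n) :
    ¬ q.π ∣ m * ∏ k ∈ n, k.π := fun e => (q.fr.pr.dvd_or_dvd e).elim
  (fun e => q.fr.pr.not_unit ((kp_cop q).of_mul_right_right.isUnit_of_dvd e)) fun e => by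
    obtain ⟨k, a, e⟩ := (q.fr.pr.dvd_finset_prod_iff _).1 e
    have c : k.l ≠ q.l := fun c =>
      hq (h k (Finset.mem_insert_of_mem a) q (Finset.mem_insert_self ..) c ▸ a)
    have c' : IsCoprime (q.l : D.O) k.l := by
      simpa using (Nat.isCoprime_iff_coprime.2 ((Nat.coprime_primes q.ov.1 k.ov.1).2 c.symm)).map
        (Int.castRingHom D.O)
    exact q.fr.pr.not_unit (c'.isUnit_of_dvd' ⟨_, q.nm.symm⟩ (e.trans ⟨_, k.nm.symm⟩))

theorem ad_prod (a : D.Ad pp α m) (n : Finset (D.Kp N χ (α * m))) :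
    D.Ad pp α (m * ∏ k ∈ n, k.π) :=
  have := dom D
  ad_mul a (Finset.prod_ne_zero_iff.2 fun k _ => k.fr.pr.ne_zero)
    (IsCoprime.prod_right fun k _ => (kp_cop k).of_mul_right_left.symm)

/-- the derivative classes from the tame characters -/
theorem kol0 (C : D.Cf) (W : D.Rw) (a : D.Ad pp α m) (t : D.Tr m χ)
    (tam : ∀ k : D.Kp N χ (α * m), ∃ e : D.G →* Multiplicative (Zn N),
      (∀ g : D.G, g.1 ∈ D.Hm k.π → e g = 1) ∧ e k.τ = .ofAdd 1) :
    ∃ κ : Finset (D.Kp N χ (α * m)) → D.G → R, Cd.Ks ι m κ ∧ κ ∅ = nz g₀ α m ι χ := by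
  have := dom D
  obtain ⟨S, _, j, x, co, x2, h1, h2, h3⟩ := ex_big R (D.Kp N χ (α * m))
  choose e k1 k2 using tam
  let ξ k := xi (j.comp ι) (e k) (x2 k)
  let Ψ (n : Finset (D.Kp N χ (α * m))) := j.toMonoidHom.comp χ * ∏ k ∈ n, ξ k
  let Z (n : Finset (D.Kp N χ (α * m))) := nz g₀ α (m * ∏ k ∈ n, k.π) (j.comp ι) (Ψ n)
  have v n g : Ψ n g = j (χ g) * ∏ k ∈ n, (1 + j (ι (e k g).toAdd) * x k) := by
    simp only [Ψ, MonoidHom.mul_apply, MonoidHom.finset_prod_apply]; rfl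
  have c1 k : D.Tr k.π (ξ k) := fun g h => by simp [ξ, xi, k1 k g h]
  have cn n : D.Tr (m * ∏ k ∈ n, k.π) (Ψ n) := tr_mul (tr_mono C (tr_map t j) (ad_prod a n).ne)
    fun g h => by
      rw [MonoidHom.finset_prod_apply]
      refine Finset.prod_eq_one fun k b => c1 k g ?_
      obtain ⟨y, hy⟩ := (Finset.dvd_prod_of_mem (fun k : D.Kp N χ (α * m) => k.π) b).mul_left m
      exact hm_le C (m' := y) (hy ▸ (ad_prod a n).ne) (hy ▸ h)
  have pi (n : Finset (D.Kp N χ (α * m))) q (h : q ∉ n) :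
      m * ∏ k ∈ insert q n, k.π = (m * ∏ k ∈ n, k.π) * q.π := by
    rw [Finset.prod_insert h, mul_comm q.π, mul_assoc]
  have st n q (h : q ∉ n) :
      Z (insert q n) = nz g₀ α ((m * ∏ k ∈ n, k.π) * q.π) (j.comp ι) (Ψ n * ξ q) := by
    simp only [Z, Ψ, Finset.prod_insert h, mul_assoc, mul_comm q.π, mul_comm (ξ q)]
  have fx n g (u : S) (h : ∀ k ∈ n, x k * u = 0) : Ψ n g * u = j (χ g) * u := by
    rw [v, mul_assoc, prod_fix h]
  have an n (hn : Cd.Inj n) : ∀ k ∈ n, ∀ g, x k * Z n g = 0 := by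
    induction n using Finset.strongInduction with
    | H n ih =>
      intro q hq g
      obtain ⟨n, h, rfl⟩ : ∃ s, q ∉ s ∧ n = insert q s :=
        ⟨n.erase q, n.notMem_erase q, (Finset.insert_erase hq).symm⟩
      have f := fx n q.φ _ fun k b =>
        ih n (Finset.ssubset_insert h) (inj_mono hn (Finset.subset_insert ..)) k b g
      rw [st n q h, modx W (pi n q h ▸ ad_prod a _) (ad_prod a n) (inj_nd hn h) q.fr (cn n) (x2 q)
        (ξ := ξ q) fun g => ⟨_, rfl⟩]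
      rw [q.one, map_one] at f
      linear_combination -x q * f
  refine ⟨fun n g => co n (Z n g), ⟨fun n hn => ?_, fun n hn l P i o hi h h' => ?_,
    fun n q h hn => ?_⟩, ?_⟩
  · have c := nz_co C W (g₀ := g₀) (ι := j.comp ι) (ad_prod a n) (cn n)
    refine ⟨fun g h => ?_, c.lc.imp fun U w => ⟨w.1, fun g h => ?_⟩⟩
    · rw [show Z n (g * h) = _ from c.coc g h, map_add, ak_ap, mul_assoc, fx n g _ fun k b =>
        an n hn k b h, ← mul_assoc, RingHom.comp_apply, ← map_mul, h1]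
      rfl
    · rw [show Z n g = 0 from w.2 g h, map_zero]
  · have := o.2.1
    have b : D.j (m * ∏ k ∈ n, k.π) ∉ P := fun b => by
      rw [map_mul, map_prod] at b
      refine (this.mem_or_mem b).elim h fun b => ?_
      obtain ⟨k, b1, b2⟩ := Ideal.IsPrime.prod_mem_iff.1 b
      exact h' k b1 b2
    rw [show Z n i = 0 from nz_unr W (ad_prod a n) (cn n) o (ne_pp a o h) hi (in_hm C o hi b),
      map_zero]
  · show co _ (Z _ _) = -co n (Z n _)
    rw [st n q h, fs C W (pi n q h ▸ ad_prod a _) (ad_prod a n) (inj_nd hn h) q.ov q.fr q.fb q.gn.1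
      (kp_one (j.comp ι) q) (cn n) (c1 q) (x2 q) (fun g => ⟨_, rfl⟩) (by simp [ξ, xi, k2]) (by
        rw [v, q.one, map_one, one_mul]
        refine Finset.prod_induction _ (fun y => IsNilpotent (y - 1)) (fun _ _ => nil_mul) (by simp)
          fun k _ => ⟨2, ?_⟩
        linear_combination j (ι (e k q.φ).toAdd) ^ 2 * x2 k), map_neg, h2 _ _ _ h]
  · funext g
    simp only [Z, Ψ, Finset.prod_empty, mul_one, ← nz_map W j a.ne, h3]

theorem nz_cl : D.Ch (D.ak ι χ) (nz g₀ α m ι χ) ((D.ak ι χ g₀ - 1) • D.zc α m ι χ) :=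
  ⟨-D.zc α m ι χ g₀, fun g => by simp [nz]⟩

end Vale.Agent.P014X.Ko

namespace Vale.Agent.P014X

/-- **row KOL** -/
theorem kol [P014U.Pp] : KOL := fun _ _ _ C W _ _ _ _ _ ι _ g₀ a t => by
  obtain ⟨κ, h1, h2⟩ := Ko.kol0 (ι := ι) (g₀ := g₀) C W a t (Tam.ex_chi C)
  exact ⟨κ, h1, h2 ▸ Ko.nz_cl⟩

end Vale.Agent.P014X
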