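import Vale.Agent.P014X.St1
import Vale.Agent.P014X.Eu.Es

/-! # P014X: Kummer classes of equivariant families -/

set_option autoImplicit false
set_option linter.all false

open NumberField
open scoped Classical

noncomputable section

namespace Vale.Agent.P014X

open P022 (Qb GQ)
open P014U
open P014U.Dr (Zn)
open P014U.Pp (ec)
open P014U.X4F.Rc (hn)

variable [Pp] {A B : ℤ} {D : Cd A B} {R : Type} [CommRing R] {N : ℕ}

namespace Cd.Ch

variable {a : D.G →* R} {y y' y'' z z' : D.G → R}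

omit [Pp]

theorem of_eq (e : y = y') : D.Ch a y y' := ⟨0, fun g => by simp [e]⟩

theorem refl (y : D.G → R) : D.Ch a y y := of_eq rfl

theorem symm (h : D.Ch a y y') : D.Ch a y' y :=
  let ⟨w, e⟩ := h; ⟨-w, fun g => by linear_combination -e g⟩

theorem trans (h : D.Ch a y y') (k : D.Ch a y' y'') : D.Ch a y y'' :=
  let ⟨w, e⟩ := h; let ⟨v, f⟩ := k; ⟨w + v, fun g => by linear_combination e g + f g⟩

theorem smul (c : R) (h : D.Ch a y y') : D.Ch a (c • y) (c • y') :=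
  let ⟨w, e⟩ := h; ⟨c * w, fun g => by
    simp only [Pi.smul_apply, smul_eq_mul]; linear_combination c * e g⟩

theorem add (h : D.Ch a y y') (k : D.Ch a z z') : D.Ch a (y + z) (y' + z') :=
  let ⟨w, e⟩ := h; let ⟨v, f⟩ := k; ⟨w + v, fun g => by
    simp only [Pi.add_apply]; linear_combination e g + f g⟩

theorem neg (h : D.Ch a y y') : D.Ch a (-y) (-y') := by simpa using h.smul (-1)

theorem sub (h : D.Ch a y y') (k : D.Ch a z z') : D.Ch a (y - z) (y' - z') := by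
  simpa only [sub_eq_add_neg] using h.add k.neg

end Cd.Ch

namespace Zs

/-- the logarithm of a root of unity -/
def dl (N : ℕ) (z : Qb) : Zn N := Classical.epsilon fun k : Zn N => z = Sy.ex (hn N) ^ k.val

variable {z z' u : Qb}

theorem dl_spec (h : z ^ pp ^ N = 1) : z = Sy.ex (hn N) ^ (dl N z).val := by
  obtain ⟨k, l, e⟩ := (Sy.ex_prim' N).eq_pow_of_pow_eq_one h
  exact Classical.epsilon_spec (p := fun k : Zn N => z = Sy.ex (hn N) ^ k.val)
    ⟨k, by rw [ZMod.val_cast_of_lt l, e]⟩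

theorem dl_nat (k : ℕ) : dl N (Sy.ex (hn N) ^ k) = k := by
  have p := Sy.ex_prim' N
  have e := dl_spec (N := N) (z := Sy.ex (hn N) ^ k) (by rw [pow_right_comm, p.pow_eq_one, one_pow])
  rw [pow_eq_pow_mod k p.pow_eq_one, ← ZMod.val_natCast] at e
  rw [pow_eq_pow_mod k p.pow_eq_one, ← ZMod.val_natCast]
  exact ZMod.val_injective _ (p.pow_inj (ZMod.val_lt _) (ZMod.val_lt _) e.symm)

theorem dl_one : dl N 1 = 0 := by simpa using dl_nat (N := N) 0

theorem dl_mul (h : z ^ pp ^ N = 1) (h' : z' ^ pp ^ N = 1) : dl N (z * z') = dl N z + dl N z' := by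
  conv_lhs => rw [dl_spec h, dl_spec h', ← pow_add, dl_nat]
  simp

theorem dl_pow (h : z ^ pp ^ N = 1) (k : ℕ) : dl N (z ^ k) = k * dl N z := by
  conv_lhs => rw [dl_spec h, ← pow_mul, dl_nat]
  simp [mul_comm]

theorem dl_gal (h : z ^ pp ^ N = 1) (g : GQ) : dl N (g z) = ec N g * dl N z := by
  rw [X4S.Aq.cz_spec g h, dl_pow h, ZMod.natCast_zmod_val]
  rfl

theorem dl_prod {J : Type} (s : Finset J) {f : J → Qb} (h : ∀ i, f i ^ pp ^ N = 1) :
    dl N (∏ i ∈ s, f i) = ∑ i ∈ s, dl N (f i) := by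
  induction s using Finset.induction_on with
  | empty => simpa using dl_one
  | insert i s n ih =>
    rw [Finset.prod_insert n, Finset.sum_insert n, dl_mul (h i) (by simp [← Finset.prod_pow, h]), ih]

theorem rt_pow (N : ℕ) (u : Qb) : rt N u ^ pp ^ N = u :=
  Classical.epsilon_spec (p := fun r => r ^ pp ^ N = u)
    (IsAlgClosed.exists_pow_nat_eq u (pow_pos pp_pos N))

theorem rt_ne (h : u ≠ 0) : rt N u ≠ 0 := fun e =>
  h (by rw [← rt_pow N u, e, zero_pow (pow_pos pp_pos N).ne'])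

theorem kum_eq (h : u ≠ 0) (g : GQ) : kum N u g = dl N (g (rt N u) / rt N u) := by
  simp only [kum, dl, div_eq_iff (rt_ne h)]

section

variable {X X' : Type} [Fintype X] [Fintype X'] [MulAction D.G X] [MulAction D.G X']
  (ι : Zn N →+* R) {χ : D.G →* R} {w : X → R} {u u' ρ ρ' : X → Qb}

variable (D) in
/-- the quotient of the two roots at `x` -/
def q (ρ : X → Qb) (g : D.G) (x : X) : Qb := g.1 (ρ (g⁻¹ • x)) / ρ x

variable (D) in
/-- the class of a family of roots -/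
def Z (w : X → R) (ρ : X → Qb) (g : D.G) : R := ∑ x, w x * ι (dl N (q D ρ g x))

variable (D N) in
/-- roots of an equivariant family -/
structure Rf (u ρ : X → Qb) : Prop where
  ne : ∀ x, u x ≠ 0
  eqv : ∀ (g : D.G) x, g.1 (u x) = u (g • x)
  rt : ∀ x, ρ x ^ pp ^ N = u x

/-- weights -/
def Wt (χ : D.G →* R) (w : X → R) : Prop := ∀ (g : D.G) x, w (g • x) = χ g * w x

omit [Fintype X] in
theorem Rf.ne' (h : Rf D N u ρ) (x : X) : ρ x ≠ 0 := fun e =>
  h.ne x (by rw [← h.rt, e, zero_pow (pow_pos pp_pos N).ne'])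

omit [Fintype X] in
theorem Rf.q_pow (h : Rf D N u ρ) (g : D.G) (x : X) : q D ρ g x ^ pp ^ N = 1 := by
  rw [q, div_pow, ← map_pow, h.rt, h.rt, h.eqv, smul_inv_smul, div_self (h.ne x)]

omit [Fintype X] in
theorem Rf.mul (h : Rf D N u ρ) (h' : Rf D N u' ρ') : Rf D N (u * u') (ρ * ρ') :=
  ⟨fun x => mul_ne_zero (h.ne x) (h'.ne x), fun g x => by simp [h.eqv, h'.eqv],
    fun x => by simp [mul_pow, h.rt, h'.rt]⟩

omit [Fintype X] in
theorem Rf.pow (h : Rf D N u ρ) (k : ℕ) : Rf D N (u ^ k) (ρ ^ k) :=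
  ⟨fun x => pow_ne_zero k (h.ne x), fun g x => by simp [h.eqv],
    fun x => by simp [pow_right_comm _ k, h.rt]⟩

omit [Fintype X] [Fintype X'] in
theorem Rf.comp (h : Rf D N u ρ) {t : X' → X} (e : ∀ (g : D.G) x, t (g • x) = g • t x) :
    Rf D N (u ∘ t) (ρ ∘ t) := ⟨fun _ => h.ne _, fun g x => by simp [h.eqv, e], fun _ => h.rt _⟩

theorem ak_apply (χ : D.G →* R) (g : D.G) : D.ak ι χ g = ι (ec N g) * χ g := rfl

/-- moving a sum by `g` -/
theorem sum_act (hw : Wt χ w) (g : D.G) {f : X → Qb} (h : ∀ x, f x ^ pp ^ N = 1) :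
    ∑ x, w x * ι (dl N (g.1 (f (g⁻¹ • x)))) = D.ak ι χ g * ∑ x, w x * ι (dl N (f x)) := by
  rw [Finset.mul_sum, ← Equiv.sum_comp (MulAction.toPerm g)]
  refine Finset.sum_congr rfl fun x _ => ?_
  simp only [MulAction.toPerm_apply, inv_smul_smul, hw g x, dl_gal (h x), map_mul, ak_apply]
  ring

theorem Z_coc (hw : Wt χ w) (h : Rf D N u ρ) (g k : D.G) :
    Z D ι w ρ (g * k) = Z D ι w ρ g + D.ak ι χ g * Z D ι w ρ k := by
  rw [Z, Z, Z, ← sum_act ι hw g (h.q_pow k), ← Finset.sum_add_distrib]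
  refine Finset.sum_congr rfl fun x _ => ?_
  rw [← mul_add, ← map_add, ← dl_mul (h.q_pow g x) (by rw [← map_pow, h.q_pow, map_one])]
  congr 3
  have := (map_ne_zero g.1).2 (h.ne' (g⁻¹ • x))
  simp only [q, mul_inv_rev, mul_smul, Subgroup.coe_mul, AlgEquiv.mul_apply, map_div₀]
  field_simp

theorem Z_mul (h : Rf D N u ρ) (h' : Rf D N u' ρ') :
    Z D ι w (ρ * ρ') = Z D ι w ρ + Z D ι w ρ' := funext fun g => by
  simp only [Z, Pi.add_apply, ← Finset.sum_add_distrib, ← mul_add, ← map_add,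
    ← dl_mul (h.q_pow g _) (h'.q_pow g _)]
  simp only [q, Pi.mul_apply, map_mul, mul_div_mul_comm]

theorem Z_pow (h : Rf D N u ρ) (k : ℕ) : Z D ι w (ρ ^ k) = (k : R) • Z D ι w ρ := funext fun g => by
  have : ∀ x, q D (ρ ^ k) g x = q D ρ g x ^ k := fun x => by simp [q, div_pow]
  simp only [Z, this, dl_pow (h.q_pow g _), map_mul, map_natCast, Pi.smul_apply, smul_eq_mul,
    Finset.mul_sum, mul_left_comm]

/-- other roots -/
theorem Z_ch (hw : Wt χ w) (h : Rf D N u ρ) (h' : Rf D N u ρ') :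
    D.Ch (D.ak ι χ) (Z D ι w ρ) (Z D ι w ρ') := by
  have p : ∀ x, (ρ x / ρ' x) ^ pp ^ N = 1 := fun x => by rw [div_pow, h.rt, h'.rt, div_self (h.ne x)]
  refine ⟨∑ x, w x * ι (dl N (ρ x / ρ' x)), fun g => ?_⟩
  rw [sub_mul, one_mul, ← sum_act ι hw g p, sub_eq_sub_iff_add_eq_add, Z, Z,
    ← Finset.sum_add_distrib, ← Finset.sum_add_distrib]
  refine Finset.sum_congr rfl fun x _ => ?_
  rw [← mul_add, ← mul_add, ← map_add, ← map_add, ← dl_mul (h.q_pow g x) (p x),
    ← dl_mul (by rw [← map_pow, p, map_one]) (h'.q_pow g x)]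
  congr 3
  have := (map_ne_zero g.1).2 (h'.ne' (g⁻¹ • x))
  have := h.ne' x
  simp only [q, map_div₀]
  field_simp

/-- translations -/
theorem Z_comp (t : X' ≃ X) (e : ∀ (g : D.G) x, t (g • x) = g • t x) (w : X → R) (ρ : X → Qb) :
    Z D ι (w ∘ t) (ρ ∘ t) = Z D ι w ρ := funext fun g => by
  simp only [Z, q, Function.comp, e]
  exact t.sum_comp fun x => w x * ι (dl N (g.1 (ρ (g⁻¹ • x)) / ρ x))

theorem Z_smul (c : R) (w : X → R) (ρ : X → Qb) : Z D ι (c • w) ρ = c • Z D ι w ρ :=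
  funext fun g => by simp only [Z, Pi.smul_apply, smul_eq_mul, Finset.mul_sum, mul_assoc]

/-- the product over the fibres -/
def ps (f : X → X') (u : X → Qb) (y : X') : Qb := ∏ x with f x = y, u x

omit [Fintype X'] in
theorem ps_act {f : X → X'} (e : ∀ (g : D.G) x, f (g • x) = g • f x) (g : D.G) (v : X → Qb) (y : X') :
    ps f (fun x => v (g • x)) y = ps f v (g • y) :=
  Finset.prod_equiv (MulAction.toPerm g) (fun x => by simp [e]) fun _ _ => rfl

omit [Fintype X'] in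
theorem Rf.ps (h : Rf D N u ρ) {f : X → X'} (e : ∀ (g : D.G) x, f (g • x) = g • f x) :
    Rf D N (ps f u) (ps f ρ) :=
  ⟨fun _ => Finset.prod_ne_zero_iff.2 fun x _ => h.ne x, fun g y => by
    rw [← ps_act e, Zs.ps, map_prod]; simp only [h.eqv]; rfl,
    fun y => by simp only [Zs.ps, ← Finset.prod_pow, h.rt]⟩

theorem Z_ps (h : Rf D N u ρ) {f : X → X'} (e : ∀ (g : D.G) x, f (g • x) = g • f x) (w : X' → R) :
    Z D ι (w ∘ f) ρ = Z D ι w (ps f ρ) := funext fun g => by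
  rw [Z, Z, ← Finset.sum_fiberwise Finset.univ f]
  refine Finset.sum_congr rfl fun y _ => ?_
  have : q D (ps f ρ) g y = ∏ x with f x = y, q D ρ g x := by
    simp only [q, ← ps_act e]
    simp only [ps, map_prod, Finset.prod_div_distrib]
  rw [this, dl_prod _ (h.q_pow g), map_sum, Finset.mul_sum]
  exact Finset.sum_congr rfl fun x k => by rw [← (Finset.mem_filter.1 k).2]; rfl

end

/-! ### the ray class groups -/

variable (D) in
/-- the ray classes -/
abbrev Xm (m : D.O) : Type := D.G ⧸ (D.Hm m).subgroupOf D.G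

/-- the conjugates of an element -/
def cu {m : D.O} (u : Qb) (x : Xm D m) : Qb := x.out.1 u

/-- the values of a character -/
def cw {m : D.O} (χ : D.G →* R) (x : Xm D m) : R := χ x.out

variable {α m : D.O} {χ : D.G →* R}

omit [Pp] in
theorem out_mk (g : D.G) : (g⁻¹ * (g : Xm D m).out).1 ∈ D.Hm m :=
  (QuotientGroup.eq (s := (D.Hm m).subgroupOf D.G)).1 (QuotientGroup.out_eq' (g : Xm D m)).symm

omit [Pp] in
theorem cu_mk (h : ∀ g ∈ D.Hm m, g u = u) (g : D.G) : cu u (g : Xm D m) = g.1 u := by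
  rw [cu, ← mul_inv_cancel_left g (g : Xm D m).out, Subgroup.coe_mul, AlgEquiv.mul_apply,
    h _ (out_mk g)]

omit [Pp] in
theorem cw_mk (h : D.Tr m χ) (g : D.G) : cw χ (g : Xm D m) = χ g := by
  rw [cw, ← mul_inv_cancel_left g (g : Xm D m).out, map_mul, h _ (out_mk g), mul_one]

omit [Pp] in
theorem wt (h : D.Tr m χ) : Wt χ (cw χ : Xm D m → R) := fun g x => by
  obtain ⟨s, rfl⟩ := QuotientGroup.mk_surjective x
  rw [MulAction.Quotient.smul_mk, cw_mk h, cw_mk h, smul_eq_mul, map_mul]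

theorem rf (u0 : u ≠ 0) (h : ∀ g ∈ D.Hm m, g u = u) :
    Rf D N (cu u : Xm D m → Qb) (cu (rt N u)) :=
  ⟨fun x => (map_ne_zero _).2 u0, fun g x => by
    obtain ⟨s, rfl⟩ := QuotientGroup.mk_surjective x
    rw [MulAction.Quotient.smul_mk, cu_mk h, cu_mk h]
    rfl, fun x => by rw [cu, ← map_pow, rt_pow, cu]⟩

omit [Pp] in
theorem fin (C : D.Cf) (m0 : m ≠ 0) : Finite (Xm D m) :=
  haveI := (D.Hm m).quotient_finite_of_isOpen (Ev.hm_op C m0)
  haveI : (D.Hm m).FiniteIndex := Subgroup.finiteIndex_of_finite_quotient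
  Subgroup.finite_quotient_of_finiteIndex

/-- the corestriction of a Kummer class -/
theorem cor_eq [Fintype (Xm D m)] (ι : Zn N →+* R) (χ : D.G →* R) (u0 : u ≠ 0)
    (h : ∀ g ∈ D.Hm m, g u = u) : D.cor (D.Hm m) (D.ak ι χ) (fun g => ι (kum N u g)) =
      Z D ι (cw χ : Xm D m → R) (cu (rt N u)) := funext fun g => by
  rw [Cd.cor, finsum_eq_sum_of_fintype]
  refine Finset.sum_congr rfl fun x _ => ?_
  have e := (rf (N := N) u0 h).q_pow g x
  have f : q D (cu (rt N u)) g x =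
      x.out.1 ((x.out⁻¹ * g * (g⁻¹ • x).out).1 (rt N u) / rt N u) := by
    rw [map_div₀, ← AlgEquiv.mul_apply, ← Subgroup.coe_mul, mul_assoc, mul_inv_cancel_left]
    rfl
  rw [f, ← map_pow, map_eq_one_iff _ x.out.1.injective] at e
  rw [kum_eq u0, f, dl_gal e, ak_apply, map_mul, cw]
  ring

theorem zc_eq (E : D.Es pp) (a : D.Ad pp α m) [Fintype (Xm D m)] (ι : Zn N →+* R) (χ : D.G →* R) :
    D.zc α m ι χ = Z D ι (cw χ : Xm D m → R) (cu (rt N (D.un α m))) :=
  cor_eq ι χ (E.ne α m a) (E.fix α m a)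

theorem rf_un (E : D.Es pp) (a : D.Ad pp α m) :
    Rf D N (cu (D.un α m) : Xm D m → Qb) (cu (rt N (D.un α m))) := rf (E.ne α m a) (E.fix α m a)

end Zs

end Vale.Agent.P014X
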