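import Vale.Agent.P014X.St1
import Vale.Agent.P022K.Cheb.Main

/-! # P014X: Kolyvagin primes exist (row KPX) -/

set_option autoImplicit false
set_option linter.all false

open NumberField QuadraticAlgebra
open scoped Classical

noncomputable section

namespace Vale.Agent.P014X

open Vale.Agent.P022 (Qb GQ)
open Vale.Agent.P022E.GW (Ov Fb)
open Vale.Agent.P014U

namespace Kpx

variable {A B : ℤ} {D : Cd A B}

theorem nz {m : D.O} (m0 : m ≠ 0) : m.norm ≠ 0 := fun e => m0 (by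
  have := D.neg
  rw [norm_def] at e
  simp only [Int.cast_id] at e
  have k : m.im = 0 := by
    by_contra k
    nlinarith [sq_pos_of_ne_zero k, sq_nonneg (2 * m.re + D.b * m.im)]
  rw [k] at e
  exact QuadraticAlgebra.ext (by simpa using e) k)

theorem cop {m : D.O} {l : ℕ} (p : l.Prime) (d : ¬ l ∣ m.norm.natAbs) : IsCoprime (l : D.O) m := by
  have k : IsCoprime (l : ℤ) m.norm :=
    Int.isCoprime_iff_gcd_eq_one.2 ((p.coprime_iff_not_dvd).2 d)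
  have := k.map (algebraMap ℤ D.O)
  rw [algebraMap_norm_eq_mul_star, map_natCast] at this
  exact this.of_mul_right_left

end Kpx

variable [Pp]

theorem kpx : KPX := by
  intro A B D F N m m₀ R _ χ h W T m0 m1 tr e h1 hW
  have d0 : (D.b ^ 2 + 4 * D.a).natAbs ≠ 0 := by have := D.neg; omega
  have n0 : m.norm.natAbs ≠ 0 := Int.natAbs_ne_zero.2 (Kpx.nz m0)
  have hV : IsOpen ((W ⊓ D.Hf m₀ ⊓ Dr.Hm (pp ^ (N + 2)) : Subgroup GQ) : Set GQ) :=
    (hW.inter (F.oH m₀ m1)).inter (Dr.Hm_open (pow_ne_zero _ pp_ne))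
  obtain ⟨l, φ, hl, a, ⟨P, p1, p2, f⟩, ⟨b1, b2⟩, b3⟩ := P022K.Cheb.exists_fr (g := h.1)
    (hV.preimage (continuous_mul_left h.1⁻¹)) (by simp [one_mem])
    ((T ∪ (m.norm.natAbs * (D.b ^ 2 + 4 * D.a).natAbs).primeFactors) ∪ {pp})
  have o : Ov l P := ⟨hl, p1, p2⟩
  simp only [Finset.mem_union, not_or, Finset.mem_singleton,
    Nat.mem_primeFactors_of_ne_zero (mul_ne_zero n0 d0), and_iff_right hl] at a
  obtain ⟨⟨a1, a2⟩, a3⟩ := a
  obtain ⟨τ, t⟩ := ex_gn o a3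
  have g : φ ∈ D.G := by simpa using mul_mem h.2 b2.1
  obtain ⟨s1, s2, -⟩ := F.spl l P φ o (fun d => a2 ((Int.natCast_dvd.1 d).mul_left _)) f
  obtain ⟨π, q1, q2, q3⟩ := s2 g
  refine ⟨⟨l, P, ⟨φ, g⟩, ⟨τ, s1 τ t.1⟩, π, o, f, t, q3, q1, q2,
    Kpx.cop hl fun d => a2 (d.mul_right _), ?_, ?_⟩, a1, b1⟩
  · obtain ⟨ζ, ξ, c1, -, c2, c3⟩ := Dr.ex_cy (pp ^ (N + 2))
    have := c3 φ l (Dr.root_cong o (Dr.nd_two o a3 _) f c1.pow_eq_one)
    rw [(c2 φ).1 (mul_inv_cancel_left h.1 φ ▸ mul_mem h1 b3), Units.val_one, ← Nat.cast_one,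
      ZMod.natCast_eq_natCast_iff'] at this
    exact this.symm.trans (Nat.mod_eq_of_lt (Nat.one_lt_pow (by omega) one_lt))
  · have := tr (h⁻¹ * ⟨φ, g⟩) ((F.hm m₀ m1 _).2 ⟨1, isUnit_one, b2.1, by rw [map_one]; exact b2.2⟩)
    rw [← mul_inv_cancel_left h ⟨φ, g⟩, map_mul, e, this, mul_one]

end Vale.Agent.P014X
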