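import Vale.Agent.P014X.Es.Raw2

/-! # P014X: the relation `dv` between the classes of the units -/

set_option autoImplicit false
set_option linter.all false

open NumberField
open scoped Classical

noncomputable section

namespace Vale.Agent.P014X

open P014U
open P014U.Dr (Zn)

namespace Zs

variable {A B : ℤ} {D : Cd A B} {R : Type} [CommRing R] {N : ℕ} {α m m' π : D.O} {χ : D.G →* R}

theorem ad_of {p : ℕ} (a' : D.Ad p α (m' * π)) (a : D.Ad p α m) (d : m ∣ m') : D.Ad p α m' :=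
  ⟨left_ne_zero_of_mul a'.ne, a.dv.trans d,
    a'.cop.of_isCoprime_of_dvd_right (mul_dvd_mul_left _ (dvd_mul_right _ _))⟩

theorem tr_of (C : D.Cf) (m0 : m * m' ≠ 0) (t : D.Tr m χ) : D.Tr (m * m') χ :=
  fun g h => t g (Ev.hm_le C m0 h)

variable [Pp] (C : D.Cf) (E : D.Es pp) (ι : Zn N →+* R)
include C E

theorem two (h : Prime π) (a' : D.Ad pp α (m * π)) (a : D.Ad pp α m) (d : π ∣ m) (t : D.Tr m χ) :
    D.Ch (D.ak ι χ) (D.zc α (m * π) ι χ) (D.zc α m ι χ) := by
  haveI := fin C a.ne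
  haveI := fin C a'.ne
  haveI := Fintype.ofFinite (Xm D m)
  haveI := Fintype.ofFinite (Xm D (m * π))
  have le := Ev.hm_le C a'.ne
  obtain ⟨T, tv, e⟩ := ps_one le (Ev.hm_G C a.ne)
  have r := rf_un (N := N) E a
  have r1 := (rf_un (N := N) E a').ps (pr_act le)
  rw [r1.ext r (by rw [e, cu_mk (E.fix α m a)]; exact E.two α m π T a' a h d tv)] at r1
  rw [zc_eq E a, zc_eq E a', cw_pr le t, Z_ps ι (rf_un E a') (pr_act le)]
  exact Z_ch ι (wt t) r1 r

theorem dv (a : D.Ad pp α m) (a' : D.Ad pp α m') (d : m ∣ m')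
    (h : ∀ π : D.O, Prime π → π ∣ m' → π ∣ m) (t : D.Tr m χ) :
    D.Ch (D.ak ι χ) (D.zc α m' ι χ) (D.zc α m ι χ) := by
  have := Ev.dom D
  have := D.pid
  obtain ⟨k, rfl⟩ := d
  induction k using UniqueFactorizationMonoid.induction_on_prime with
  | h₁ => exact absurd (mul_zero m) a'.ne
  | h₂ u hu =>
    obtain ⟨u, rfl⟩ := hu
    obtain ⟨π, i, d⟩ := WfDvdMonoid.exists_irreducible_factor (fun u => Ev.p_nu (D := D) pp_prime
      (isUnit_of_dvd_unit ((dvd_pow_self _ two_ne_zero).trans a.dv) u)) a.ne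
    have e : m * u * (↑u⁻¹ * π) = m * π := by simp [mul_assoc]
    have b : D.Ad pp α (m * π) := ⟨mul_ne_zero a.ne i.ne_zero, a.dv.mul_right _, by
      rw [← mul_assoc]
      exact a.cop.mul_right (a.cop.of_isCoprime_of_dvd_right (d.mul_left _))⟩
    have s := two C E ι (π := u⁻¹.1 * π) ((associated_unit_mul_right π _ u⁻¹.isUnit).prime i.prime)
      (e ▸ b) a' (Units.mul_left_dvd.2 (d.mul_right _)) (tr_of C a'.ne t)
    rw [e] at s
    exact s.symm.trans (two C E ι i.prime b a d t)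
  | h₃ k π k0 hp ih =>
    rw [mul_comm π, ← mul_assoc] at a' h ⊢
    have b := ad_of a' a (dvd_mul_right m k)
    exact (two C E ι hp a' b ((h π hp (dvd_mul_left _ _)).mul_right _) (tr_of C b.ne t)).trans
      (ih b fun π p d => h π p (d.mul_right _))

end Zs

end Vale.Agent.P014X
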