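import Vale.Agent.P014X.Es.Raw4
import Vale.Agent.P014X.Es.Raw3

/-! # P014X: the relations between the classes of the units -/

set_option autoImplicit false
set_option linter.all false

namespace Vale.Agent.P014X

open P014U

variable [Pp]

/-- **the row `RAW`** -/
theorem raw : RAW := fun _ _ D C E =>
  { co := Rw4.co D C E
    map := Rw4.map D C
    dv := fun _ _ _ _ _ _ ι _ a a' d h t => Zs.dv C E ι a a' d h t
    odd := fun _ _ _ _ _ _ h _ _ ι _ a' a n t => Zs.odd C E ι h a' a n t
    smo := fun _ _ _ _ _ _ _ _ _ _ ι _ a a' z z' h h' t => Zs.smo C E ι a a' z z' h h' t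
    cnj := fun _ _ _ _ _ ι _ _ a t e => Zs.cnj C E ι a t e
    unr := Rw4.unr D C E
    lev := Rw4.lev D C E }

end Vale.Agent.P014X
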