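import Vale.Agent.P014X.Es.Zs

/-! # P014X: the classes of the units, first half of the relations -/

set_option autoImplicit false
set_option linter.all false

open NumberField
open scoped Classical

noncomputable section

namespace Vale.Agent.P014X.Rw4

open Vale.Agent.P022 (Qb GQ)
open Vale.Agent.P027M.S (Inert)
open Vale.Agent.P022E.GW (Ov Fb)
open Vale.Agent.P014U
open Vale.Agent.P014U.Dr (Zn)
open Vale.Agent.P014U.Pp (ec)
open Vale.Agent.P014U.X4F.Rc (hn)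
open Vale.Agent.P014U.X4S.Aq (cz_spec)

variable [Pp]

/-- the chosen root of unity -/
abbrev ze (N : ℕ) : Qb := Sy.ex (hn N)

theorem ze_prim (N : ℕ) : IsPrimitiveRoot (ze N) (pp ^ N) := Sy.ex_prim' N

theorem nz (N : ℕ) : NeZero (pp ^ N) := ⟨pow_ne_zero _ pp_ne⟩

theorem ze_cast (N k : ℕ) : ze N ^ (k : Zn N).val = ze N ^ k := by
  rw [ZMod.val_natCast, ← pow_eq_pow_mod k (ze_prim N).pow_eq_one]

theorem ze_inj {N a b : ℕ} (h : ze N ^ a = ze N ^ b) : (a : Zn N) = b := by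
  have := nz N
  rw [← ze_cast N a, ← ze_cast N b] at h
  exact ZMod.val_injective _ ((ze_prim N).pow_inj (ZMod.val_lt _) (ZMod.val_lt _) h)

theorem ze_gal (N : ℕ) (g : GQ) : g (ze N) = ze N ^ (ec N g).val := cz_spec g (ze_prim N).pow_eq_one

theorem ze_lev {N n : ℕ} (le : n ≤ N) : ze N ^ pp ^ (N - n) = ze n := by
  obtain ⟨k, rfl⟩ := Nat.exists_eq_add_of_le le
  rw [Nat.add_sub_cancel_left, ← Sy.ex_nat]
  exact congrArg _ (by rw [Nat.cast_pow, mul_comm, Sy.hn_add])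

theorem rt_pow (N : ℕ) (u : Qb) : rt N u ^ pp ^ N = u :=
  Classical.epsilon_spec (IsAlgClosed.exists_pow_nat_eq u (pow_pos pp_pos N))

theorem rt_ne (N : ℕ) {u : Qb} (u0 : u ≠ 0) : rt N u ≠ 0 := fun h =>
  u0 (by rw [← rt_pow N u, h, zero_pow (nz N).1])

theorem ex_ze {N : ℕ} {r r' : Qb} (r0 : r ≠ 0) (h : r' ^ pp ^ N = r ^ pp ^ N) :
    ∃ k : ℕ, r' = ze N ^ k * r := by
  have := nz N
  obtain ⟨k, -, e⟩ := (ze_prim N).eq_pow_of_pow_eq_one (ξ := r' / r)
    (by rw [div_pow, h, div_self (pow_ne_zero _ r0)])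
  exact ⟨k, by rw [e, div_mul_cancel₀ _ r0]⟩

theorem kum_spec (N : ℕ) {u : Qb} (u0 : u ≠ 0) {g : GQ} (h : g u = u) :
    g (rt N u) = ze N ^ (kum N u g).val * rt N u := by
  obtain ⟨k, e⟩ := ex_ze (N := N) (rt_ne N u0) (r' := g (rt N u)) (by rw [← map_pow, rt_pow, h])
  exact Classical.epsilon_spec (p := fun k : Zn N => g (rt N u) = ze N ^ k.val * rt N u)
    ⟨k, by rw [ze_cast]; exact e⟩

theorem kum_eq {N : ℕ} {u : Qb} (u0 : u ≠ 0) {g : GQ} {k : ℕ} (h : g (rt N u) = ze N ^ k * rt N u) :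
    kum N u g = k := by
  have := nz N
  have e := kum_spec N u0 (g := g) (by
    rw [← rt_pow N u, map_pow, h, mul_pow, ← pow_mul, mul_comm k, pow_mul, (ze_prim N).pow_eq_one,
      one_pow, one_mul])
  rw [← ZMod.natCast_zmod_val (kum N u g)]
  exact ze_inj (mul_right_cancel₀ (rt_ne N u0) (e.symm.trans h))

theorem kum_zero {N : ℕ} {u : Qb} (u0 : u ≠ 0) {g : GQ} (h : g (rt N u) = rt N u) : kum N u g = 0 := by
  simpa using kum_eq u0 (k := 0) (by rw [h, pow_zero, one_mul])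

theorem kum_mul (N : ℕ) {u : Qb} (u0 : u ≠ 0) {g g' : GQ} (h : g u = u) (h' : g' u = u) :
    kum N u (g * g') = kum N u g + ec N g * kum N u g' := by
  have := nz N
  rw [kum_eq u0 (k := (kum N u g).val + (ec N g).val * (kum N u g').val) (by
    rw [AlgEquiv.mul_apply, kum_spec N u0 h', map_mul, map_pow, ze_gal, kum_spec N u0 h, ← pow_mul,
      pow_add]
    ring)]
  simp

theorem ec_lev {N n : ℕ} (le : n ≤ N) (g : GQ) :
    ZMod.castHom (pow_dvd_pow pp le) (Zn n) (ec N g) = ec n g :=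
  DFunLike.congr_fun (PadicInt.zmod_cast_comp_toZModPow n N le) _

theorem kum_lev {N n : ℕ} (le : n ≤ N) {u : Qb} (u0 : u ≠ 0) : ∃ w : Zn n, ∀ g : GQ, g u = u →
    ZMod.castHom (pow_dvd_pow pp le) (Zn n) (kum N u g) - kum n u g = (ec n g - 1) * w := by
  have := nz N
  have := nz n
  obtain ⟨j, e⟩ := ex_ze (N := n) (rt_ne n u0) (r' := rt N u ^ pp ^ (N - n)) (by
    rw [← pow_mul, ← pow_add, Nat.sub_add_cancel le, rt_pow, rt_pow])
  refine ⟨j, fun g h => ?_⟩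
  have a := congrArg (· ^ pp ^ (N - n)) (kum_spec N u0 h)
  simp only [← map_pow, mul_pow] at a
  rw [e, map_mul, map_pow, ze_gal, kum_spec n u0 h, ← pow_mul (ze N), mul_comm (kum N u g).val,
    pow_mul, ze_lev le, ← mul_assoc, ← mul_assoc, ← pow_mul, ← pow_add, ← pow_add] at a
  have b := ze_inj (mul_right_cancel₀ (rt_ne n u0) a)
  push_cast at b
  rw [ZMod.natCast_zmod_val, ZMod.natCast_zmod_val] at b
  rw [ZMod.castHom_apply, ZMod.cast_eq_val]
  linear_combination -b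

/-- inertia fixes the roots of a unit -/
theorem inert_fix {l n : ℕ} {P : Ideal (𝓞 Qb)} (o : Ov l P) (c : l.Coprime n) (n0 : n ≠ 0) {i : GQ}
    (k : Inert P i) {r : Qb} (U : Cd.Uo P (r ^ n)) (f : i (r ^ n) = r ^ n) : i r = r := by
  obtain ⟨s, t, hs, ht, e⟩ := U
  have pr := o.2.1
  obtain ⟨q, rfl⟩ := Nat.exists_eq_succ_of_ne_zero n0
  have e1 : ((s : Qb) * r) ^ (q + 1) = ((s ^ q * t : 𝓞 Qb) : Qb) := by
    rw [show ((s ^ q * t : 𝓞 Qb) : Qb) = (s : Qb) ^ q * t by simp, ← e, Nat.succ_eq_add_one]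
    ring
  have r0 : r ≠ 0 := fun h => ht (by
    have : (t : Qb) = 0 := by rw [← e, h, zero_pow n0, mul_zero]
    rw [show t = 0 from Subtype.ext this]
    exact zero_mem _)
  have z1 : (i r / r) ^ (q + 1) = 1 := by
    rw [div_pow, ← map_pow, f, div_self (pow_ne_zero _ r0)]
  obtain ⟨y, hy⟩ : ∃ y : 𝓞 Qb, (y : Qb) = s * r :=
    ⟨⟨_, IsIntegral.of_pow q.succ_pos (e1 ▸ (s ^ q * t).2)⟩, rfl⟩
  obtain ⟨z, hz⟩ : ∃ z : 𝓞 Qb, (z : Qb) = i r / r :=
    ⟨⟨i r / r, IsIntegral.of_pow (R := ℤ) (x := i r / r) q.succ_pos (z1.symm ▸ isIntegral_one)⟩, rfl⟩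
  have y0 : y ∉ P := fun h => by
    have : y ^ (q + 1) = s ^ q * t := RingOfIntegers.ext ((by rw [← hy]; rfl : ((y ^ (q + 1) : 𝓞 Qb) : Qb) = _).trans e1)
    exact (pr.mem_or_mem (this ▸ P.pow_mem_of_mem h _ q.succ_pos)).elim
      (fun a => hs (pr.mem_of_pow_mem _ a)) ht
  have e2 : s * (i • y) = (i • s) * z * y := Subtype.ext (by
    show (s : Qb) * i y = i s * z * y
    rw [hy, hz, map_mul]
    field_simp)
  have m1 : z - 1 ∈ P := by
    have : s * y * (z - 1) = s * (i • y - y) - (i • s - s) * (z * y) := by linear_combination -e2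
    have b : s * y * (z - 1) ∈ P := this ▸ sub_mem (P.mul_mem_left _ (k y)) (P.mul_mem_right _ (k s))
    exact (pr.mem_or_mem b).resolve_left fun a => (pr.mem_or_mem a).elim hs y0
  have z2 : z ^ (q + 1) = 1 := RingOfIntegers.ext ((by rw [← hz]; rfl : ((z ^ (q + 1) : 𝓞 Qb) : Qb) = _).trans z1)
  have z3 : z = 1 := by_contra fun n1 => by
    have g := mul_geom_sum z (q + 1)
    rw [z2, sub_self, mul_eq_zero, or_iff_right (sub_ne_zero.2 n1)] at g
    have a : ((q + 1 : ℕ) : 𝓞 Qb) ∈ P := by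
      have b : ∑ j ∈ Finset.range (q + 1), (z ^ j - 1) ∈ P :=
        P.sum_mem fun j _ => (sub_one_dvd_pow_sub_one z j).elim fun w e => e ▸ P.mul_mem_right _ m1
      rw [Finset.sum_sub_distrib, g, Finset.sum_const, Finset.card_range, zero_sub, nsmul_one] at b
      exact P.neg_mem_iff.1 b
    obtain ⟨x, w, b⟩ := Nat.Coprime.cast (R := 𝓞 Qb) c
    exact pr.ne_top ((Ideal.eq_top_iff_one _).2
      (b ▸ add_mem (P.mul_mem_left _ o.2.2) (P.mul_mem_left _ a)))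
  rw [z3] at hz
  exact (div_eq_one_iff_eq r0).1 hz.symm

theorem uo_gal {l : ℕ} {u : Qb} (h : ∀ P, Ov l P → Cd.Uo P u) (s : GQ) {P : Ideal (𝓞 Qb)}
    (o : Ov l P) : Cd.Uo P (s u) := by
  have := o.2.1
  obtain ⟨a, b, ha, hb, e⟩ := h (P.comap (MulSemiringAction.toRingHom GQ (𝓞 Qb) s))
    ⟨o.1, Ideal.comap_isPrime _ _, by rw [Ideal.mem_comap, map_natCast]; exact o.2.2⟩
  exact ⟨s • a, s • b, ha, hb, by
    show s (a : Qb) * s u = s (b : Qb)
    rw [← map_mul, e]⟩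

section cor

variable {A B : ℤ} {D : Cd A B} {R : Type} [CommRing R] {H : Subgroup GQ} {a : D.G →* R}
  {y y' : D.G → R}

theorem fin (o : IsOpen (H : Set GQ)) : Finite (D.G ⧸ H.subgroupOf D.G) := by
  have := H.quotient_finite_of_isOpen o
  have := H.finiteIndex_of_finite_quotient
  infer_instance

theorem mem (g : D.G) (x : D.G ⧸ H.subgroupOf D.G) : (x.out⁻¹ * g * (g⁻¹ • x).out).1 ∈ H := by
  have : x.out⁻¹ * (g * (g⁻¹ • x).out) ∈ H.subgroupOf D.G := QuotientGroup.eq.1 (by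
    rw [QuotientGroup.out_eq', ← smul_eq_mul, ← MulAction.Quotient.smul_mk, QuotientGroup.out_eq',
      smul_inv_smul])
  rwa [← mul_assoc] at this

theorem sh (g : D.G) (x x' : D.G) : a x * a (x⁻¹ * g * x') = a g * a x' := by
  rw [← map_mul, ← map_mul, ← mul_assoc, mul_inv_cancel_left]

theorem shift [Fintype (D.G ⧸ H.subgroupOf D.G)] (g : D.G) (f : D.G ⧸ H.subgroupOf D.G → R) :
    ∑ x, f (g⁻¹ • x) = ∑ x, f x := Equiv.sum_comp (MulAction.toPerm g⁻¹) f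

theorem cor_mul (o : IsOpen (H : Set GQ))
    (c : ∀ g h : D.G, g.1 ∈ H → h.1 ∈ H → y (g * h) = y g + a g * y h) (g h : D.G) :
    D.cor H a y (g * h) = D.cor H a y g + a g * D.cor H a y h := by
  have := fin (D := D) o
  have := Fintype.ofFinite (D.G ⧸ H.subgroupOf D.G)
  simp only [Cd.cor, finsum_eq_sum_of_fintype]
  rw [← shift g fun x => a x.out * y (x.out⁻¹ * h * (h⁻¹ • x).out),
    Finset.mul_sum, ← Finset.sum_add_distrib]
  refine Finset.sum_congr rfl fun x _ => ?_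
  rw [← mul_assoc (a g), ← sh g x.out, mul_assoc (a x.out), ← mul_add,
    ← c _ _ (mem g x) (mem h _), mul_inv_rev, mul_smul]
  simp only [mul_assoc, mul_inv_cancel_left]

theorem cor_ch (o : IsOpen (H : Set GQ)) {w : R} (c : ∀ g : D.G, g.1 ∈ H → y g - y' g = (a g - 1) * w) :
    D.Ch a (D.cor H a y) (D.cor H a y') := by
  have := fin (D := D) o
  have := Fintype.ofFinite (D.G ⧸ H.subgroupOf D.G)
  refine ⟨∑ x : D.G ⧸ H.subgroupOf D.G, a x.out * w, fun g => ?_⟩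
  simp only [Cd.cor, finsum_eq_sum_of_fintype]
  rw [sub_mul, one_mul, ← Finset.sum_sub_distrib]
  nth_rw 1 [← shift g fun x => a x.out * w]
  rw [Finset.mul_sum, ← Finset.sum_sub_distrib]
  refine Finset.sum_congr rfl fun x _ => ?_
  rw [← mul_sub, c _ (mem g x), ← mul_assoc (a g), ← sh g x.out]
  ring

theorem cor_zero (n : ∀ g ∈ D.G, ∀ h ∈ H, g * h * g⁻¹ ∈ H) {i : D.G} (m : i.1 ∈ H)
    (c : ∀ x : D.G ⧸ H.subgroupOf D.G, y (x.out⁻¹ * i * x.out) = 0) : D.cor H a y i = 0 := by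
  refine finsum_eq_zero_of_forall_eq_zero fun x => ?_
  have e : i⁻¹ • x = x := by
    conv_lhs => rw [← QuotientGroup.out_eq' x, MulAction.Quotient.smul_mk]
    conv_rhs => rw [← QuotientGroup.out_eq' x]
    refine QuotientGroup.eq.2 ?_
    have := n _ (x.out⁻¹).2 _ m
    simpa [Subgroup.mem_subgroupOf, mul_assoc] using this
  rw [e, c, mul_zero]

end cor

variable {A B : ℤ} (D : Cd A B) (F : D.Cf) (E : D.Es pp)

theorem ak_eq {N : ℕ} {R : Type} [CommRing R] (ι : Zn N →+* R) (χ : D.G →* R) (g : D.G) :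
    D.ak ι χ g = ι (ec N g) * χ g := rfl

include F

theorem map (N : ℕ) (α m : D.O) (R R' : Type) [CommRing R] [CommRing R'] (f : R →+* R')
    (ι : Zn N →+* R) (χ : D.G →* R) (g : D.G) (m0 : m ≠ 0) :
    f (D.zc α m ι χ g) = D.zc α m (f.comp ι) (f.toMonoidHom.comp χ) g := by
  have := fin (D := D) (Ev.hm_op F m0)
  have := Fintype.ofFinite (D.G ⧸ (D.Hm m).subgroupOf D.G)
  simp only [Cd.zc, Cd.cor, finsum_eq_sum_of_fintype, map_sum, map_mul, ak_eq]
  rfl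

include E

theorem zc_zero {N : ℕ} {α m : D.O} {R : Type} [CommRing R] (ι : Zn N →+* R) (χ : D.G →* R)
    (a : D.Ad pp α m) {i : D.G} (k : i.1 ∈ D.Hm m)
    (c : ∀ x : D.G ⧸ (D.Hm m).subgroupOf D.G,
      i.1 (x.out.1 (rt N (D.un α m))) = x.out.1 (rt N (D.un α m))) : D.zc α m ι χ i = 0 :=
  cor_zero (fun g b h => Ev.hm_cj F a.ne b) k fun x => by
    rw [kum_zero (E.ne α m a), map_zero]
    show x.out.1⁻¹ (i.1 (x.out.1 _)) = _
    rw [c, ← AlgEquiv.mul_apply, inv_mul_cancel, AlgEquiv.one_apply]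

theorem co (N : ℕ) (α m : D.O) (R : Type) [CommRing R] (ι : Zn N →+* R) (χ : D.G →* R)
    (a : D.Ad pp α m) (t : D.Tr m χ) : D.Co (D.ak ι χ) (D.zc α m ι χ) := by
  have o := Ev.hm_op F a.ne
  have := fin (D := D) o
  refine ⟨cor_mul o fun g h b c => ?_, D.Hm m ⊓ ⨅ x : D.G ⧸ (D.Hm m).subgroupOf D.G,
    MulAction.stabilizer GQ (x.out.1 (rt N (D.un α m))), ?_, fun w b =>
      zc_zero D F E ι χ a b.1 fun x => Subgroup.mem_iInf.1 b.2 x⟩
  · rw [Subgroup.coe_mul, kum_mul N (E.ne α m a) (E.fix α m a _ b) (E.fix α m a _ c), ak_eq, t g b,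
      mul_one, map_add, map_mul]
  · rw [Subgroup.coe_inf, Subgroup.coe_iInf]
    exact o.inter (isOpen_iInter_of_finite fun x =>
      stabilizer_isOpen_of_isIntegral (K := ℚ) _)

theorem unr (N : ℕ) (α m : D.O) (R : Type) [CommRing R] (ι : Zn N →+* R) (χ : D.G →* R) (l : ℕ)
    (P : Ideal (𝓞 Qb)) (i : D.G) (a : D.Ad pp α m) (t : D.Tr m χ) (o : Ov l P) (n : l ≠ pp)
    (k : Inert P i.1) (b : i.1 ∈ D.Hm m) : D.zc α m ι χ i = 0 :=
  zc_zero D F E ι χ a b fun x => by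
    refine inert_fix o (((Nat.coprime_primes o.1 pp_prime).2 n).pow_right N) (nz N).1 k ?_ ?_ <;>
      rw [← map_pow, rt_pow]
    · exact uo_gal (fun P o => E.unit α m a l P o n) _ o
    · have := E.fix α m a _ (Ev.hm_cj F a.ne (x.out⁻¹).2 b)
      rw [← this]
      conv_lhs => rw [this]
      simp only [← AlgEquiv.mul_apply, Subgroup.coe_inv, inv_inv, ← mul_assoc, mul_inv_cancel, one_mul]

theorem lev (N n : ℕ) (le : n ≤ N) (α m : D.O) (R : Type) [CommRing R] (ι : Zn n →+* R)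
    (χ : D.G →* R) (a : D.Ad pp α m) (t : D.Tr m χ) : D.Ch (D.ak ι χ)
      (D.zc α m (ι.comp (ZMod.castHom (pow_dvd_pow pp le) (Zn n))) χ) (D.zc α m ι χ) := by
  obtain ⟨w, h⟩ := kum_lev le (E.ne α m a)
  have e : D.ak (ι.comp (ZMod.castHom (pow_dvd_pow pp le) (Zn n))) χ = D.ak ι χ :=
    MonoidHom.ext fun g => by rw [ak_eq, ak_eq, RingHom.comp_apply, ec_lev le]
  rw [Cd.zc, e]
  refine cor_ch (Ev.hm_op F a.ne) (w := ι w) fun g b => ?_
  rw [RingHom.comp_apply, ← map_sub, h _ (E.fix α m a _ b), ak_eq, t g b, mul_one, map_mul, map_sub,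
    map_one]

end Vale.Agent.P014X.Rw4
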