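import Vale.Agent.P014X.St1
import Vale.Agent.P014X.Cm.Cg
import Vale.Agent.P014X.Cm.Cf0
import Vale.Agent.P014U.Dr.Cy

/-! # P014X: the tame character of a Kolyvagin prime, the cyclotomic variable (helper15) -/

set_option autoImplicit false
set_option linter.all false

open NumberField
open scoped Classical

noncomputable section

namespace Vale.Agent.P014X.Tam

open Vale.Agent.P022 (Qb GQ)
open Vale.Agent.P027M.S (Inert)
open Vale.Agent.P022E.GW (Ov Fb)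
open Vale.Agent.P014U
open Vale.Agent.P014U.Dr (Zn)
open Cd.Cf

variable [Pp]

theorem dv12 {a n : ℕ} (h : pp ^ (n + 1) ∣ 12 * a) : pp ^ n ∣ a := by
  replace h : pp ^ (n + 1) ∣ 3 * a := ((cop_two.symm.pow_right 2).pow_left _).dvd_of_dvd_mul_left
    (show pp ^ (n + 1) ∣ 2 ^ 2 * (3 * a) by rwa [← mul_assoc])
  by_cases e : pp = 3
  · rw [pow_succ', e] at h
    rw [e]; exact Nat.dvd_of_mul_dvd_mul_left three_pos h
  · exact (pow_dvd_pow pp n.le_succ).trans ((((Nat.coprime_primes pp_prime Nat.prime_three).2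
      e).pow_left _).dvd_of_dvd_mul_left h)

/-- the discrete logarithm -/
theorem ex_log {l N m : ℕ} (hl : l.Prime) (d : pp ^ (N + 2) ∣ l - 1) (hm : l - 1 = pp * m)
    {u z : (ZMod l)ˣ} (hz : z ^ 12 = 1) (h : (u * z) ^ m ≠ 1) :
    ∃ f : (ZMod l)ˣ →* Multiplicative (Zn N), (∀ v, v ^ 12 = 1 → f v = 1) ∧ f u = .ofAdd 1 := by
  have := Fact.mk hl
  obtain ⟨E⟩ : Nonempty (Multiplicative (ZMod (l - 1)) ≃* (ZMod l)ˣ) := by
    have := zmodCyclicMulEquiv (G := (ZMod l)ˣ) inferInstance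
    rw [Nat.card_eq_fintype_card, ZMod.card_units] at this
    exact ⟨this⟩
  have : NeZero (l - 1) := ⟨by have := hl.one_lt; omega⟩
  have lg (v : (ZMod l)ˣ) : ∃ a : ℕ, E.symm v = .ofAdd (a : ZMod (l - 1)) :=
    (ZMod.natCast_zmod_surjective (E.symm v).toAdd).imp fun a e => by rw [e, ofAdd_toAdd]
  have p1 {v} {a : ℕ} (e : E.symm v = .ofAdd (a : ZMod (l - 1))) (c : pp ∣ a) : v ^ m = 1 := by
    obtain ⟨b, rfl⟩ := c
    rw [← E.symm.map_eq_one_iff, map_pow, e, ← ofAdd_nsmul, nsmul_eq_mul, ← Nat.cast_mul,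
      mul_left_comm, ← mul_assoc, ← hm, Nat.cast_mul, ZMod.natCast_self, zero_mul, ofAdd_zero]
  have p2 {v} {a : ℕ} (e : E.symm v = .ofAdd (a : ZMod (l - 1))) (c : v ^ 12 = 1) :
      pp ^ (N + 1) ∣ a := by
    rw [← E.symm.map_eq_one_iff, map_pow, e, ← ofAdd_nsmul, nsmul_eq_mul, ← Nat.cast_mul,
      ofAdd_eq_one, ZMod.natCast_eq_zero_iff] at c
    exact dv12 (d.trans c)
  obtain ⟨a, ha⟩ := lg u
  obtain ⟨b, hb⟩ := lg z
  have oa : ¬ pp ∣ a := fun c => h (by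
    rw [mul_pow, p1 ha c, p1 hb ((dvd_pow_self pp N.succ_ne_zero).trans (p2 hb hz)), one_mul])
  obtain ⟨w, hw⟩ := ((ZMod.isUnit_iff_coprime a (pp ^ N)).2
    (((pp_prime.coprime_iff_not_dvd).2 oa).symm.pow_right N)).exists_left_inv
  have d' : pp ^ N ∣ l - 1 := (pow_dvd_pow pp (by omega)).trans d
  let f := ((AddMonoidHom.mulLeft w).comp
    (ZMod.castHom d' (Zn N)).toAddMonoidHom).toMultiplicative.comp E.symm.toMonoidHom
  have k {v} {a : ℕ} (e : E.symm v = .ofAdd (a : ZMod (l - 1))) : f v = .ofAdd (w * a) :=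
    congrArg Multiplicative.ofAdd (show w * ZMod.castHom d' (Zn N) (E.symm v).toAdd = _ by
      rw [e, toAdd_ofAdd, map_natCast])
  refine ⟨f, fun v c => ?_, by rw [k ha, hw]⟩
  obtain ⟨x, hx⟩ := lg v
  rw [k hx, (ZMod.natCast_eq_zero_iff x _).2 ((pow_dvd_pow pp N.le_succ).trans (p2 hx c)), mul_zero,
    ofAdd_zero]

variable {A B : ℤ} {D : Cd A B} (F : D.Cf) {m m' π : D.O} {l n : ℕ} {P : Ideal (𝓞 Qb)}

omit [Pp] in
theorem nm_of (e : π * star π = l) : D.nm π = l := by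
  have := D.chz
  exact_mod_cast (nm_eq π).1.trans e

omit [Pp] in
theorem cop_of (p : Prime π) (a : D.j π ∈ P) (b : D.j m ∉ P) : IsCoprime m π := by
  have := D.dom
  have := D.pid
  refine (p.irreducible.coprime_iff_not_dvd.2 fun ⟨c, e⟩ => b ?_).symm
  rw [e, map_mul]
  exact P.mul_mem_right _ a

omit [Pp] in
/-- the residue map of a prime of degree one -/
theorem ex_res (hl : l.Prime) (e : π * star π = l) :
    ∃ r : D.O →+* ZMod l, ∀ x, r x = 0 ↔ π ∣ x := by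
  have c := (Cf0.card_q D π).trans (nm_of e)
  have : Finite (D.O ⧸ Ideal.span {π}) := Nat.finite_of_card_ne_zero (c ▸ hl.ne_zero)
  have := Fintype.ofFinite (D.O ⧸ Ideal.span {π})
  let E := ZMod.ringEquivOfPrime (D.O ⧸ Ideal.span {π}) hl (Nat.card_eq_fintype_card.symm.trans c)
  exact ⟨E.symm.toRingHom.comp (Ideal.Quotient.mk _), fun x => E.symm.map_eq_zero_iff.trans
    (Ideal.Quotient.eq_zero_iff_mem.trans Ideal.mem_span_singleton)⟩

include F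

omit [Pp] in
theorem hm_le (m0 : m' ≠ 0) (d : m ∣ m') : D.Hm m' ≤ D.Hm m := fun g a =>
  ((F.hm m' m0 g).1 a).elim fun ζ k =>
    (F.hm m (ne_zero_of_dvd_ne_zero m0 d) g).2 ⟨ζ, k.1, F.ac_dvd m0 d k.2⟩

omit [Pp] in
/-- the ray class field contains the roots of unity -/
theorem hm_mu (m0 : m ≠ 0) (d : (n : D.O) ∣ m) : D.Hm m ≤ Dr.Hm n := fun g a z hz => by
  have n0 := ne_zero_of_dvd_ne_zero m0 d
  obtain ⟨ζ, u, k⟩ := (F.hm _ n0 g).1 (hm_le F m0 d a)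
  rw [F.det n g ζ (by rintro rfl; exact n0 Nat.cast_zero) k z hz, Cd.nm, nm_unit u]
  exact pow_one z

omit [Pp] in
/-- the ray class field is unramified outside the conductor -/
theorem in_hm (o : Ov l P) {i : GQ} (a : i ∈ D.G) (h : Inert P i) (m0 : m ≠ 0) (b : D.j m ∉ P) :
    i ∈ D.Hm m := by
  obtain ⟨π, p, c, -⟩ := F.bel l P o
  obtain ⟨ζ, u, t⟩ := F.mt π P 0 i ⟨p, o.2.1, c, a, fun x => by simpa using h x⟩
  exact (F.hm m m0 i).2 ⟨ζ, u, by simpa using t m m0 (cop_of p c b)⟩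

/-- **the tame character** -/
theorem tam {N : ℕ} {R : Type} [CommRing R] {χ : D.G →* R} (k : D.Kp N χ m') :
    ∃ e : D.G →* Multiplicative (Zn N),
      (∀ m ≠ 0, k.π ∣ m → ∀ g : D.G, g.1 ∈ D.Hm m → e g = 1) ∧ e k.τ = .ofAdd 1 := by
  have := Fact.mk k.ov.1
  have := D.dom
  have p0 := k.fr.pr.ne_zero
  obtain ⟨r, hr⟩ := ex_res k.ov.1 k.nm
  choose β hβ using fun g : D.G => Cf0.ac_ex p0 g.2
  have q {g : D.G} {γ} (a : D.Ac k.π g γ) : r (β g) = r γ :=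
    sub_eq_zero.1 ((map_sub r _ _).symm.trans ((hr _).2 ((F.ac_iff p0 (hβ g)).1 a)))
  let θ : D.G →* ZMod k.l := ⟨⟨fun g => r (β g), (q Cf0.ac_one).trans r.map_one⟩, fun g h =>
    (q (F.ac_mul (hβ g) (hβ h))).trans (r.map_mul _ _)⟩
  have d : pp ^ (N + 2) ∣ k.l - 1 := (Nat.modEq_iff_dvd' k.ov.1.one_le).1
    (k.md.trans (Nat.mod_eq_of_lt (Nat.one_lt_pow (by omega) one_lt)).symm).symm
  obtain ⟨m, hm⟩ := (dvd_pow_self pp (by omega)).trans d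
  obtain ⟨ζ, hζ⟩ := HasEnoughRootsOfUnity.exists_primitiveRoot Qb k.l
  have l0 := nc (D := D) k.ov.1.ne_zero
  obtain ⟨γ, a⟩ := Cf0.ac_ex l0 k.τ.2
  have ns := k.gn.pow k.ov (m := m) (by have := k.ov.1.one_lt; omega) hζ
    (F.det _ _ _ k.ov.1.ne_zero a ζ hζ.pow_eq_one)
  obtain ⟨z, u, t⟩ := F.mt k.π k.P 0 k.τ ⟨k.fr.pr, k.fr.pP, k.fr.mem, k.τ.2,
    fun x => by simpa using k.gn.1 x⟩
  have s0 := star_ne_zero.2 p0
  have b := (F.ac_iff s0 (F.ac_dvd l0 ⟨k.π, by rw [← k.nm, mul_comm]⟩ a)).1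
    (t _ s0 (cop_of k.fr.pr k.fr.mem k.bar))
  have c : r (star γ) = r (star z) := sub_eq_zero.1 ((map_sub r _ _).symm.trans ((hr _).2 (by
    simpa [starRingEnd_apply] using map_dvd (starRingEnd D.O) b)))
  obtain ⟨f, f1, f2⟩ := ex_log k.ov.1 d hm (u := θ.toHomUnits k.τ) (z := (u.star.map r).unit)
    (Units.ext (by simp [← map_pow, F.un _ u.star])) fun e => ns (by
      rw [← map_natCast r, (nm_eq γ).1, map_mul, c, ← q (F.ac_dvd l0 ⟨_, k.nm.symm⟩ a)]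
      simpa [θ] using congrArg Units.val e)
  refine ⟨f.comp θ.toHomUnits, fun m m0 d g h => f1 _ (Units.ext ?_), f2⟩
  obtain ⟨w, v, s⟩ := (F.hm _ p0 g).1 (hm_le F m0 d h)
  show r (β g) ^ 12 = 1
  rw [q s, ← map_pow, F.un w v, map_one]

theorem ex_chi {R : Type} [CommRing R] {N : ℕ} {χ : D.G →* R} (k : D.Kp N χ m) :
    ∃ e : D.G →* Multiplicative (Zn N), (∀ g : D.G, g.1 ∈ D.Hm k.π → e g = 1) ∧ e k.τ = .ofAdd 1 :=
  (tam F k).imp fun _ h => ⟨h.1 _ k.fr.pr.ne_zero dvd_rfl, h.2⟩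

omit F in
/-- the cyclotomic variable in rank one -/
theorem var0 {R : Type} [CommRing R] (h2 : IsNilpotent (pp : R)) (o : Ov l P) (l2 : l ≠ pp) {φ : GQ}
    (f : Fb l P φ) {s : R} (hs : IsNilpotent (s - 1)) :
    ∃ (k : ℕ) (S : Type) (_ : CommRing S) (j : R →+* S) (e : S →+* R) (γ : GQ →* S),
      (∀ x, e (j x) = x) ∧ (∀ g, e (γ g) = 1) ∧ Dr.Cd (pp ^ k) γ ∧ (∀ g, IsNilpotent (γ g - 1)) ∧
      ∀ u, (1 - j s * γ φ) * u = 0 → e u = 0 := by
  obtain ⟨k, S, _, j, e, γ, a, b, c, d, h⟩ := Dr.ex_var h2 o l2 f hs (l + 1)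
  refine ⟨k, S, _, j, e, γ, a, b, c, d, fun u z => h u ?_⟩
  push_cast
  linear_combination (l - j s * γ φ) * z

/-- **the cyclotomic variable in rank one**, on `D.G` -/
theorem ex_var {R : Type} [CommRing R] (h2 : IsNilpotent (pp : R)) (o : Ov l P) (l2 : l ≠ pp)
    {φ : D.G} (f : Fb l P φ.1) {s : R} (hs : IsNilpotent (s - 1)) :
    ∃ (k : ℕ) (S : Type) (_ : CommRing S) (j : R →+* S) (e : S →+* R) (γ : D.G →* S),
      (∀ x, e (j x) = x) ∧ (∀ g, e (γ g) = 1) ∧ (∀ m ≠ 0, (pp : D.O) ^ k ∣ m → D.Tr m γ) ∧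
      (∀ g, IsNilpotent (γ g - 1)) ∧ ∀ u, (1 - j s * γ φ) * u = 0 → e u = 0 := by
  obtain ⟨k, S, _, j, e, γ, a, b, c, d, h⟩ := var0 h2 o l2 f hs
  exact ⟨k, S, _, j, e, γ.comp D.G.subtype, a, fun g => b g, fun m m0 t g i =>
    c g (hm_mu F m0 (by exact_mod_cast t) i), fun g => d g, h⟩

end Vale.Agent.P014X.Tam
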